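import Mathlib
import Vale.Agent.P181.H539.Growth

/-! P181, T7: the counting inequality for the head branch. -/

set_option autoImplicit false

open Finset

namespace Vale.Agent.P181.H503

open Vale.Agent.P181.H463 (gt)
open Vale.Agent.P181.H539

/-- `(D + N - 1).choose (N - 1) ≤ (e (1 + D / N)) ^ N`. -/
theorem choose_le (D N : ℕ) (hN : 0 < N) :
    ((D + N - 1).choose (N - 1) : ℝ) ≤ Real.exp N * (1 + (D : ℝ) / N) ^ N := by
  have hN' : (0 : ℝ) < N := by exact_mod_cast hN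
  have h1 : (D + N - 1).choose (N - 1) ≤ (D + N).choose N := by
    obtain ⟨M, rfl⟩ : ∃ M, N = M + 1 := ⟨N - 1, by omega⟩
    rw [Nat.add_sub_cancel, show D + (M + 1) = (D + M) + 1 by ring,
      show D + M + 1 - 1 = D + M by omega, Nat.choose_succ_succ]
    exact Nat.le_add_right _ _
  have h2 : ((D + N).choose N : ℝ) ≤ ((D + N : ℕ) : ℝ) ^ N / (N.factorial : ℝ) :=
    Nat.choose_le_pow_div N (D + N)
  have h3 : (N : ℝ) ^ N / (N.factorial : ℝ) ≤ Real.exp N :=
    Real.pow_div_factorial_le_exp (N : ℝ) hN'.le N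
  have h4 : ((D + N : ℕ) : ℝ) ^ N = (N : ℝ) ^ N * (1 + (D : ℝ) / N) ^ N := by
    rw [← mul_pow]
    congr 1
    push_cast
    field_simp
    ring
  calc ((D + N - 1).choose (N - 1) : ℝ) ≤ ((D + N).choose N : ℝ) := by exact_mod_cast h1
    _ ≤ ((D + N : ℕ) : ℝ) ^ N / (N.factorial : ℝ) := h2
    _ = (N : ℝ) ^ N / (N.factorial : ℝ) * (1 + (D : ℝ) / N) ^ N := by rw [h4]; ring
    _ ≤ Real.exp N * (1 + (D : ℝ) / N) ^ N :=
        mul_le_mul_of_nonneg_right h3 (by positivity)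

theorem one_add_sum_le_prod {ι : Type*} (s : Finset ι) (x : ι → ℝ) (hx : ∀ i ∈ s, 0 ≤ x i) :
    1 + ∑ i ∈ s, x i ≤ ∏ i ∈ s, (1 + x i) := by
  classical
  induction s using Finset.induction_on with
  | empty => simp
  | insert i s hi ih =>
    rw [Finset.sum_insert hi, Finset.prod_insert hi]
    have h1 := ih (fun j hj => hx j (Finset.mem_insert_of_mem hj))
    have h2 := hx i (Finset.mem_insert_self i s)
    have h3 : 0 ≤ ∑ j ∈ s, x j :=
      Finset.sum_nonneg fun j hj => hx j (Finset.mem_insert_of_mem hj)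
    nlinarith [mul_nonneg h2 h3]

/-- **Counting inequality of the head branch.** `top` bounds the loss of the top rows, `U` is the
number of type systems. -/
theorem num7_core {n a N : ℕ} (hn : n ≤ a) (ha : 0 < a) (haN : a ≤ N) {eta : Fin n → ℕ}
    (hl : Antitone eta) (top U : ℝ) (htop : 0 ≤ top)
    (hU : top * (Real.exp N * (1 + ((∑ i, eta i : ℕ) : ℝ) / N) ^ a) ≤ U) :
    top * (gt n a eta : ℝ) * (((∑ i, eta i) + N - 1).choose (N - 1) : ℝ) ≤
      U * (gt n N eta : ℝ) := by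
  have hN : 0 < N := lt_of_lt_of_le ha haN
  have hN' : (0 : ℝ) < N := by exact_mod_cast hN
  set D : ℕ := ∑ i, eta i with hD
  have h1 := choose_le D N hN
  have h2 := gt_growth_prod hn ha haN hl
  have h3 : (1 + (D : ℝ) / N) ≤ ∏ i, (1 + (eta i : ℝ) / N) := by
    have := one_add_sum_le_prod (univ : Finset (Fin n)) (fun i => (eta i : ℝ) / N)
      (fun i _ => by positivity)
    refine le_trans (le_of_eq ?_) this
    rw [hD]
    push_cast
    rw [Finset.sum_div]
  have h4 : (1 + (D : ℝ) / N) ^ (N - a) ≤ (∏ i, (1 + (eta i : ℝ) / N)) ^ (N - a) :=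
    pow_le_pow_left₀ (by positivity) h3 _
  have h5 : (gt n a eta : ℝ) * (1 + (D : ℝ) / N) ^ (N - a) ≤ gt n N eta :=
    (mul_le_mul_of_nonneg_left h4 (Nat.cast_nonneg _)).trans h2
  have h6 : (1 + (D : ℝ) / N) ^ N = (1 + (D : ℝ) / N) ^ a * (1 + (D : ℝ) / N) ^ (N - a) := by
    rw [← pow_add]
    congr 1
    omega
  have hU0 : 0 ≤ U := le_trans (by positivity) hU
  calc top * (gt n a eta : ℝ) * ((D + N - 1).choose (N - 1) : ℝ)
      ≤ top * (gt n a eta : ℝ) * (Real.exp N * (1 + (D : ℝ) / N) ^ N) :=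
        mul_le_mul_of_nonneg_left h1 (by positivity)
    _ = (top * (Real.exp N * (1 + (D : ℝ) / N) ^ a)) *
          ((gt n a eta : ℝ) * (1 + (D : ℝ) / N) ^ (N - a)) := by rw [h6]; ring
    _ ≤ U * ((gt n a eta : ℝ) * (1 + (D : ℝ) / N) ^ (N - a)) :=
        mul_le_mul_of_nonneg_right hU (by positivity)
    _ ≤ U * (gt n N eta : ℝ) := mul_le_mul_of_nonneg_left h5 hU0

/-- The same in natural numbers. -/
theorem num7_nat {n a N : ℕ} (hn : n ≤ a) (ha : 0 < a) (haN : a ≤ N) {eta : Fin n → ℕ}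
    (hl : Antitone eta) (top U : ℕ)
    (hU : (top : ℝ) * (Real.exp N * (1 + ((∑ i, eta i : ℕ) : ℝ) / N) ^ a) ≤ U) :
    top * gt n a eta * ((∑ i, eta i) + N - 1).choose (N - 1) ≤ U * gt n N eta := by
  have := num7_core hn ha haN hl (top : ℝ) (U : ℝ) (Nat.cast_nonneg _) hU
  exact_mod_cast this

end Vale.Agent.P181.H503
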