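import Vale.Agent.P181.H503.CaseII
import Vale.Agent.P181.H403.Dec2
import Vale.Agent.P181.H310.LB7
import Vale.Agent.P181.H539.UpStmt

set_option autoImplicit false

/-!
# P181, T7: case II, unconditional
-/

namespace Vale.Agent.P181.H503

open Vale.Agent.P181.T4 Vale.Agent.P181.T7

theorem dec2_stmt : Dec2Stmt := by
  intro a b R r N0 k0 lam hlam hsum hr hrR hRa hk0 hk0a hN0 hroom hZ hb
  exact H403.dec2 hlam hsum hr hrR hRa hk0 hk0a hN0 hroom hZ hb

/-- **Case II.** -/
theorem caseII : CaseII := caseII_of H539.up_stmt H310.lb7 dec2_stmt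

end Vale.Agent.P181.H503
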