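import Vale.Agent.P181.H503.CaseII8
import Vale.Agent.P181.H310.LB7k

set_option autoImplicit false

/-!
# P181, T8: case II with general thresholds, unconditional
-/

namespace Vale.Agent.P181.H503

open Vale.Agent.P181.T4 Vale.Agent.P181.T7 Vale.Agent.P181.H280 Vale.Agent.P181.H463

theorem lb7k : LB7k := by
  intro a k B n r N top mu h1 h2 h3 h4 h5 h6 h7 h8 h9 h10 h11 h12 h13
  exact H310.lb7k_full a k B n r N top mu h1 h2 h3 h4 (by omega) h6 h7 h8 h9 h10 h11 h12 h13

/-- **Case II with general thresholds**, unconditional. -/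
theorem caseII8_full : CaseII8 := caseII8 lb7k

end Vale.Agent.P181.H503
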