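import Vale.Agent.P181.T7.Spec
import Vale.Agent.P181.H463.CutRev

set_option autoImplicit false

/-!
# P181, T7: case II of helper502's semigroup reduction

All but few columns of the reduced shape `mu` have one exact length `r ≥ 3`; the lower bound `LB7`
for `mu` and the reduction `Dec2Stmt` give Foulkes' inequality for `lam`.
-/

namespace Vale.Agent.P181.H503

open Vale.Agent.P181.T4 Vale.Agent.P181.T7 Vale.Agent.P181.H280 Vale.Agent.P181.H463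

/-- **[DEC-II]**: the reduction of `lam` to `mu`. -/
def Dec2Stmt : Prop := ∀ (a b R r N0 k0 : ℕ) (lam : Fin a → ℕ), Antitone lam →
  ∑ i, lam i = a * b → 1 ≤ r → r ≤ R → R < a → 2 * R ≤ k0 → k0 ≤ a → R ≤ N0 →
  4 * N0 * (k0 + 2 * R) + 2 * a + ex lam r ≤ ex lam (r - 1) →
  2 * (R * ex lam R + 2 * a * R ^ 2 + ∑ i, low R lam i) ≤ N0 * k0 →
  16 * R ^ 2 * N0 ≤ b →
  ∃ (N k : ℕ) (mu : Fin a → ℕ), Antitone mu ∧ ∑ i, mu i = k * N ∧ k0 ≤ k ∧ k ≤ k0 + 2 * R ∧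
    k ≤ a ∧ (∀ s, R ≤ s → ex mu s = ex lam s) ∧
    ex mu r + 4 * N0 * k ≤ ex mu (r - 1) ∧ ex mu 0 ≤ 2 * (ex mu (r - 1) - ex mu r) ∧
    ∑ i, low r mu i ≤ R * ex lam R + 2 * a * R ^ 2 + ∑ i, low R lam i ∧
    plethMult N k a mu ≤ plethMult b a a lam

lemma gt_congr {n m a : ℕ} {f : Fin n → ℕ} {g : Fin m → ℕ} (h : n = m)
    (hfg : ∀ i, ex f i = ex g i) : gt n a f = gt m a g := by
  subst h
  congr 1
  funext i
  have := hfg i
  rwa [ex_of_lt f i.2, ex_of_lt g i.2] at this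

lemma ex_low {n R i : ℕ} (lam : Fin n → ℕ) : ex (low R lam) i = ex lam (R + i) := by
  unfold ex low
  by_cases h : i < n - R
  · rw [dif_pos h, dif_pos (by omega)]
    simp only [ex]
    rw [dif_pos (by omega)]
  · rw [dif_neg h, dif_neg (by omega)]

lemma ex_le_sum {n : ℕ} (lam : Fin n → ℕ) (j : ℕ) : ex lam j ≤ ∑ i, lam i := by
  unfold ex
  split_ifs with h
  · exact Finset.single_le_sum (f := lam) (fun i _ => Nat.zero_le _) (Finset.mem_univ _)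
  · exact Nat.zero_le _

/-- The upper bound. -/
lemma upper (hU : UpStmt) {a b R : ℕ} (hR : R ≤ a) {lam : Fin a → ℕ} (hlam : Antitone lam) :
    plethMult a b a lam ≤ (ex lam 0 + 1) ^ (a * R) * gt (a - R) a (low R lam) := by
  have hle : ∀ i : ℕ, ex lam i ≤ ex lam 0 := fun i => ex_anti hlam (Nat.zero_le i)
  have h1 := plethMult_le_pow (a := a) (b := b) (c := a) (R := R) (m := a - R) (by omega) lam
    (ex lam 0) (fun i _ => by
      have := hle i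
      rwa [ex_of_lt lam i.2] at this)
  have h2 : (fun i : Fin (a - R) => lam ⟨R + i, by have := i.isLt; omega⟩) = low R lam := by
    funext i
    have := i.isLt
    rw [low, ex_of_lt lam (by omega)]
  rw [h2] at h1
  have h3 := hU (a - R) a (low R lam) (low_anti hlam R)
  rw [mul_comm a R]
  exact h1.trans (Nat.mul_le_mul_left _ h3)

/-- The comparison of the two lower parts. -/
lemma lower_cmp {a R r M : ℕ} (hr : r ≤ R) (hR : R ≤ a) {lam mu : Fin a → ℕ} (hmu : Antitone mu)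
    (heq : ∀ s, R ≤ s → ex mu s = ex lam s) (hM : ex mu r ≤ M) :
    gt (a - R) a (low R lam) ≤ (M + 1) ^ (a * (R - r)) * gt (a - r) a (low r mu) := by
  have h1 := cut_rev (a := a) (n := a - r) (R := R - r) (by omega) (by omega)
    (low_anti hmu r)
  have h2 : gt (a - r - (R - r)) a (low (R - r) (low r mu)) = gt (a - R) a (low R lam) := by
    apply gt_congr (by omega)
    intro i
    rw [ex_low, ex_low, ex_low, ← heq (R + i) (by omega)]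
    congr 1
    omega
  rw [h2] at h1
  refine h1.trans (Nat.mul_le_mul_right _ (Nat.pow_le_pow_left ?_ _))
  rw [ex_low, add_zero]
  omega

/-- **Case II, finite form.** -/
theorem case2_fin (hU : UpStmt) (hLB : LB7) (hD2 : Dec2Stmt) {a b R r N0 k0 : ℕ}
    {lam : Fin a → ℕ} (hb2 : b ≤ a ^ 2) (hlam : Antitone lam) (hsum : ∑ i, lam i = a * b)
    (hr : 3 ≤ r) (hrR : r ≤ R) (hRa : R < a) (hk0 : 2 * R ≤ k0) (hk0a : k0 ≤ a) (hN0 : a ≤ N0)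
    (hroom : 4 * N0 * (k0 + 2 * R) + 2 * a + ex lam r ≤ ex lam (r - 1))
    (hZ : 2 * (R * ex lam R + 2 * a * R ^ 2 + ∑ i, low R lam i) ≤ N0 * k0)
    (hb : 16 * R ^ 2 * N0 ≤ b) (hk : 8 * R * (R + 5) ≤ k0) (hRN : 16 * R ^ 3 ≤ N0)
    (hkN : 10 ^ 7 * R ^ 2 * N0 ≤ k0 ^ 2)
    (htop : ((a : ℝ) ^ 3 + 1) ^ (2 * a * R) * ((a : ℝ) + 1) ^ a ≤ Real.exp N0) :
    plethMult a b a lam ≤ plethMult b a a lam := by
  obtain ⟨N, k, mu, hmu, hsmu, hk1, hk2, hka, heq, hy, h0, hlow, hle⟩ := hD2 a b R r N0 k0 lam hlam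
    hsum (by omega) hrR hRa hk0 hk0a (by omega) hroom hZ hb
  have hab : a * b ≤ a ^ 3 := by
    calc a * b ≤ a * a ^ 2 := Nat.mul_le_mul_left _ hb2
      _ = a ^ 3 := by ring
  have hN0b : N0 ≤ b := by
    have h1 : 1 ≤ R ^ 2 := Nat.one_le_pow _ _ (by omega)
    nlinarith
  have hN0k : N0 * k0 ≤ a ^ 3 := by
    calc N0 * k0 ≤ b * a := Nat.mul_le_mul hN0b hk0a
      _ = a * b := mul_comm _ _
      _ ≤ _ := hab
  have hra : r ≤ a := by omega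
  have hexr : ex mu r ≤ a ^ 3 := by
    by_cases hra' : r < a
    · have h1 : ex mu r ≤ ∑ i, low r mu i := by
        have h2 := ex_le_sum (low r mu) 0
        rwa [ex_low, add_zero] at h2
      omega
    · omega
  have hex0 : ex lam 0 ≤ a ^ 3 := (ex_le_sum lam 0).trans (by omega)
  -- the upper bound
  have h1 := upper hU (b := b) hRa.le hlam
  have h2 := lower_cmp hrR hRa.le hmu heq hexr
  have h3 : plethMult a b a lam ≤ (a ^ 3 + 1) ^ (2 * a * R) * gt (a - r) a (low r mu) := by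
    calc plethMult a b a lam ≤ (ex lam 0 + 1) ^ (a * R) * gt (a - R) a (low R lam) := h1
      _ ≤ (a ^ 3 + 1) ^ (a * R) * ((a ^ 3 + 1) ^ (a * (R - r)) * gt (a - r) a (low r mu)) :=
        Nat.mul_le_mul (Nat.pow_le_pow_left (by omega) _) h2
      _ = (a ^ 3 + 1) ^ (a * R + a * (R - r)) * gt (a - r) a (low r mu) := by
        rw [pow_add, mul_assoc]
      _ ≤ _ := by
        apply Nat.mul_le_mul_right
        apply Nat.pow_le_pow_right (by omega)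
        have : a * (R - r) ≤ a * R := Nat.mul_le_mul_left _ (Nat.sub_le _ _)
        nlinarith
  -- LB7
  have c1 : 8 * r * (r + 5) ≤ k := by
    refine le_trans ?_ (hk.trans hk1)
    exact Nat.mul_le_mul (Nat.mul_le_mul_left _ hrR) (Nat.add_le_add_right hrR 5)
  have c2 : 16 * r ^ 3 ≤ N0 :=
    (Nat.mul_le_mul_left 16 (Nat.pow_le_pow_left hrR 3)).trans hRN
  have c3 : 2 * ∑ i, low r mu i ≤ N0 * k :=
    ((Nat.mul_le_mul_left 2 hlow).trans hZ).trans (Nat.mul_le_mul_left _ hk1)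
  have c4 : 10 ^ 7 * r ^ 2 * N0 ≤ k ^ 2 := by
    refine le_trans ?_ (hkN.trans (Nat.pow_le_pow_left hk1 2))
    exact Nat.mul_le_mul_right _ (Nat.mul_le_mul_left _ (Nat.pow_le_pow_left hrR 2))
  obtain ⟨T, hT⟩ : ∃ T : ℕ, T = (a ^ 3 + 1) ^ (2 * a * R) := ⟨_, rfl⟩
  rw [← hT] at h3
  have c5 : (T : ℝ) * ((k : ℝ) + 1) ^ a ≤ Real.exp N0 := by
    refine le_trans ?_ htop
    rw [hT]
    push_cast
    have h5 : (k : ℝ) ≤ a := by exact_mod_cast hka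
    gcongr
  have h4 := hLB a k N a r N0 T mu hmu hsmu le_rfl hN0 hr hra c1 c2 hy h0 c3 c4 c5
  exact h3.trans (h4.trans hle)

/-! ### Real numbers -/

lemma rp {A δ : ℝ} (hA : 0 < A) (m n : ℕ) :
    A ^ ((m : ℝ) / 2 + n * δ) = (A ^ ((1 : ℝ) / 2)) ^ m * (A ^ δ) ^ n := by
  rw [Real.rpow_add hA, ← Real.rpow_natCast (A ^ ((1 : ℝ) / 2)) m, ← Real.rpow_mul hA.le,
    ← Real.rpow_natCast (A ^ δ) n, ← Real.rpow_mul hA.le]
  congr 2
  · ring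
  · ring

lemma top_le {a R N0 : ℕ} (ha : 2 ≤ a) (h : (8 * (a : ℝ) * R + 2 * a) * Real.log a ≤ N0) :
    ((a : ℝ) ^ 3 + 1) ^ (2 * a * R) * ((a : ℝ) + 1) ^ a ≤ Real.exp N0 := by
  have ha2 : (2 : ℝ) ≤ a := by exact_mod_cast ha
  have ha0 : (0 : ℝ) < a := by linarith
  have h1 : (a : ℝ) ^ 3 + 1 ≤ (a : ℝ) ^ 4 := by
    have h3 : (1 : ℝ) ≤ (a : ℝ) ^ 3 := one_le_pow₀ (by linarith)
    have h4 : (a : ℝ) ^ 4 = a * (a : ℝ) ^ 3 := by ring
    rw [h4]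
    nlinarith
  have h2 : (a : ℝ) + 1 ≤ (a : ℝ) ^ 2 := by nlinarith
  calc ((a : ℝ) ^ 3 + 1) ^ (2 * a * R) * ((a : ℝ) + 1) ^ a
      ≤ ((a : ℝ) ^ 4) ^ (2 * a * R) * ((a : ℝ) ^ 2) ^ a := by gcongr
    _ = (a : ℝ) ^ (8 * a * R + 2 * a) := by
      rw [← pow_mul, ← pow_mul, ← pow_add]
      congr 1
      ring
    _ = Real.exp ((8 * (a : ℝ) * R + 2 * a) * Real.log a) := by
      rw [mul_comm _ (Real.log a), Real.exp_mul, Real.exp_log ha0, ← Real.rpow_natCast]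
      push_cast
      rfl
    _ ≤ _ := Real.exp_le_exp.2 h

section nums

variable {S X R N K : ℝ} (hX : 100 ≤ X) (hSX : X ^ 20 ≤ S) (hR0 : 0 ≤ R) (hR : R ≤ X ^ 2)
  (n1 : S ^ 2 * X ^ 3 ≤ N) (n2 : N ≤ 2 * (S ^ 2 * X ^ 3)) (k1 : S * X ^ 7 ≤ K)
  (k2 : K ≤ 2 * (S * X ^ 7))

include hX in
lemma hpow (i j : ℕ) (h : i ≤ j) : X ^ i ≤ X ^ j := pow_le_pow_right₀ (by linarith) h

include hX hSX in
lemma one_le_S : 100 ≤ S := by
  have h3 := hpow hX 1 20 (by norm_num)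
  rw [pow_one] at h3
  linarith

include hX hSX in
lemma X_le_S (i : ℕ) (hi : i ≤ 19) : 100 * X ^ i ≤ S := by
  refine le_trans ?_ hSX
  have h0 : 0 < X := by linarith
  calc 100 * X ^ i ≤ X * X ^ i := by gcongr
    _ = X ^ (i + 1) := by ring
    _ ≤ _ := hpow hX _ _ (by omega)

include hX hSX hR in
lemma num1 : R < S ^ 2 := by
  have h1 := X_le_S hX hSX 2 (by norm_num)
  have h2 := one_le_S hX hSX
  have h3 : 0 < X ^ 2 := by positivity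
  nlinarith

include hX hSX hR k1 in
lemma num2 : 2 * R ≤ K := by
  have h1 := one_le_S hX hSX
  have h3 : X ^ 2 ≤ X ^ 7 := hpow hX 2 7 (by norm_num)
  have h4 : 0 < X ^ 2 := by positivity
  nlinarith

include hX hSX k2 in
lemma num3 : K ≤ S ^ 2 := by
  have h1 := X_le_S hX hSX 7 (by norm_num)
  have h2 := one_le_S hX hSX
  have h3 : 0 < X ^ 7 := by positivity
  nlinarith

include hX n1 in
lemma num4 : S ^ 2 ≤ N := by
  have h1 : 1 ≤ X ^ 3 := one_le_pow₀ (by linarith)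
  nlinarith [sq_nonneg S]

include hX hSX hR n2 k2 hR0 in
lemma num5 (hK0 : 0 ≤ K) :
    4 * N * (K + 2 * R) + 2 * S ^ 2 ≤ S ^ 3 * X ^ 16 := by
  have hS := one_le_S hX hSX
  have hX0 : 0 < X := by linarith
  have h2 : K + 2 * R ≤ 4 * (S * X ^ 7) := by
    have h3 : 2 * R ≤ S * X ^ 7 := num2 hX hSX hR le_rfl
    have h4 : 0 < S * X ^ 7 := by positivity
    linarith
  have h5 : 4 * N * (K + 2 * R) ≤ 4 * (2 * (S ^ 2 * X ^ 3)) * (4 * (S * X ^ 7)) := by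
    gcongr
  have h6 : 4 * (2 * (S ^ 2 * X ^ 3)) * (4 * (S * X ^ 7)) = 32 * (S ^ 3 * X ^ 10) := by ring
  have h7 : S ^ 2 ≤ S ^ 3 * X ^ 10 := by
    have h9 : 1 ≤ X ^ 10 := one_le_pow₀ (by linarith)
    have h10 : S ^ 2 ≤ S ^ 3 := pow_le_pow_right₀ (by linarith) (by norm_num)
    calc S ^ 2 = S ^ 2 * 1 := (mul_one _).symm
      _ ≤ S ^ 3 * X ^ 10 := by gcongr
  have h8 : 34 * (S ^ 3 * X ^ 10) ≤ S ^ 3 * X ^ 16 := by
    have h9 : (34 : ℝ) ≤ X ^ 6 := by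
      calc (34 : ℝ) ≤ X ^ 1 := by rw [pow_one]; linarith
        _ ≤ X ^ 6 := hpow hX 1 6 (by norm_num)
    calc 34 * (S ^ 3 * X ^ 10) ≤ X ^ 6 * (S ^ 3 * X ^ 10) := by gcongr
      _ = _ := by ring
  linarith

include hX hSX hR n1 k1 hR0 in
lemma num6 {L D : ℝ} (hL0 : 0 ≤ L) (hL : L ≤ S ^ 3 * X ^ 6) (hD : D ≤ S ^ 3 * X ^ 6) :
    2 * (R * L + 2 * S ^ 2 * R ^ 2 + D) ≤ N * K := by
  have hS := one_le_S hX hSX
  have hX0 : 0 < X := by linarith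
  have hNk : S ^ 3 * X ^ 10 ≤ N * K := by
    calc S ^ 3 * X ^ 10 = (S ^ 2 * X ^ 3) * (S * X ^ 7) := by ring
      _ ≤ _ := mul_le_mul n1 k1 (by positivity) (le_trans (by positivity) n1)
  refine le_trans ?_ hNk
  have h2 : R * L ≤ X ^ 2 * (S ^ 3 * X ^ 6) := by gcongr
  have h3 : 2 * S ^ 2 * R ^ 2 ≤ 2 * (S ^ 3 * X ^ 8) := by
    have h4 : S ^ 2 * R ^ 2 ≤ S ^ 3 * (X ^ 2) ^ 2 := by
      have h7 : S ^ 2 ≤ S ^ 3 := pow_le_pow_right₀ (by linarith) (by norm_num)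
      gcongr
    have h6 : S ^ 3 * (X ^ 2) ^ 2 ≤ S ^ 3 * X ^ 8 := by
      rw [← pow_mul]
      have h8 : X ^ (2 * 2) ≤ X ^ 8 := hpow hX 4 8 (by norm_num)
      gcongr
    linarith
  have h4 : S ^ 3 * X ^ 6 ≤ S ^ 3 * X ^ 8 := by
    have := hpow hX 6 8 (by norm_num)
    gcongr
  have h5 : X ^ 2 * (S ^ 3 * X ^ 6) = S ^ 3 * X ^ 8 := by ring
  have h6 : 8 * (S ^ 3 * X ^ 8) ≤ S ^ 3 * X ^ 10 := by
    have h7 : (8 : ℝ) ≤ X ^ 2 := by nlinarith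
    calc 8 * (S ^ 3 * X ^ 8) ≤ X ^ 2 * (S ^ 3 * X ^ 8) := by gcongr
      _ = _ := by ring
  linarith

include hX hR n2 hR0 in
lemma num7 (hN0 : 0 ≤ N) : 16 * R ^ 2 * N ≤ S ^ 2 * X ^ 9 := by
  have h2 : 16 * R ^ 2 * N ≤ 16 * (X ^ 2) ^ 2 * (2 * (S ^ 2 * X ^ 3)) := by gcongr
  have h3 : 16 * (X ^ 2) ^ 2 * (2 * (S ^ 2 * X ^ 3)) = 32 * (S ^ 2 * X ^ 7) := by ring
  have hX0 : 0 < X := by linarith
  have h4 : 32 * (S ^ 2 * X ^ 7) ≤ S ^ 2 * X ^ 9 := by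
    have h7 : (32 : ℝ) ≤ X ^ 2 := by nlinarith
    calc 32 * (S ^ 2 * X ^ 7) ≤ X ^ 2 * (S ^ 2 * X ^ 7) := by gcongr
      _ = _ := by ring
  linarith

include hX hSX hR k1 hR0 in
lemma num8 : 8 * R * (R + 5) ≤ K := by
  refine le_trans ?_ k1
  have hX0 : 0 < X := by linarith
  have hS := one_le_S hX hSX
  have h2 : 8 * R * (R + 5) ≤ 8 * X ^ 2 * (X ^ 2 + 5) := by gcongr
  have h3 : 8 * X ^ 2 * (X ^ 2 + 5) ≤ 48 * X ^ 4 := by
    have h4 : 1 ≤ X ^ 2 := one_le_pow₀ (by linarith)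
    have h5 : X ^ 4 = X ^ 2 * X ^ 2 := by ring
    rw [h5]
    nlinarith
  have h6 : 48 * X ^ 4 ≤ X ^ 7 := by
    have h7 : (48 : ℝ) ≤ X ^ 3 := by
      calc (48 : ℝ) ≤ X ^ 1 := by rw [pow_one]; linarith
        _ ≤ X ^ 3 := hpow hX 1 3 (by norm_num)
    calc 48 * X ^ 4 ≤ X ^ 3 * X ^ 4 := by gcongr
      _ = _ := by ring
  have h8 : X ^ 7 ≤ S * X ^ 7 := by
    have h9 : 0 < X ^ 7 := by positivity
    nlinarith
  linarith

include hX hSX hR n1 hR0 in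
lemma num9 : 16 * R ^ 3 ≤ N := by
  refine le_trans ?_ n1
  have hX0 : 0 < X := by linarith
  have hS := one_le_S hX hSX
  have h2 : 16 * R ^ 3 ≤ 16 * (X ^ 2) ^ 3 := by gcongr
  have h3 : 16 * (X ^ 2) ^ 3 = (16 * X ^ 3) * X ^ 3 := by ring
  have h4 : 16 * X ^ 3 ≤ S ^ 2 := by
    have h5 := X_le_S hX hSX 3 (by norm_num)
    have h6 : 0 < X ^ 3 := by positivity
    nlinarith
  rw [h3] at h2
  refine h2.trans ?_
  gcongr

include hX hR n2 k1 hR0 hSX in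
lemma num10 (hN0 : 0 ≤ N) : (10 : ℝ) ^ 7 * R ^ 2 * N ≤ K ^ 2 := by
  have hX0 : 0 < X := by linarith
  have hS := one_le_S hX hSX
  have h2 : (10 : ℝ) ^ 7 * R ^ 2 * N ≤ (10 : ℝ) ^ 7 * (X ^ 2) ^ 2 * (2 * (S ^ 2 * X ^ 3)) := by
    gcongr
  have h3 : (S * X ^ 7) ^ 2 ≤ K ^ 2 := by gcongr
  refine h2.trans (le_trans ?_ h3)
  have h4 : (2 * 10 ^ 7 : ℝ) ≤ X ^ 7 := by
    calc (2 * 10 ^ 7 : ℝ) ≤ 100 ^ 7 := by norm_num
      _ ≤ X ^ 7 := by gcongr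
  calc (10 : ℝ) ^ 7 * (X ^ 2) ^ 2 * (2 * (S ^ 2 * X ^ 3))
      = (2 * 10 ^ 7) * (S ^ 2 * X ^ 7) := by ring
    _ ≤ X ^ 7 * (S ^ 2 * X ^ 7) := by gcongr
    _ = _ := by ring

include hX hR n1 in
lemma num11 {l : ℝ} (hl0 : 0 ≤ l) (hl : 10 * l ≤ X) :
    (8 * S ^ 2 * R + 2 * S ^ 2) * l ≤ N := by
  refine le_trans ?_ n1
  have hX0 : 0 < X := by linarith
  have h1 : 8 * S ^ 2 * R + 2 * S ^ 2 ≤ 10 * (S ^ 2 * X ^ 2) := by
    have h2 : S ^ 2 * R ≤ S ^ 2 * X ^ 2 := by gcongr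
    have h3 : S ^ 2 * 1 ≤ S ^ 2 * X ^ 2 := by
      have : 1 ≤ X ^ 2 := one_le_pow₀ (by linarith)
      gcongr
    linarith
  calc (8 * S ^ 2 * R + 2 * S ^ 2) * l ≤ (10 * (S ^ 2 * X ^ 2)) * l := by gcongr
    _ = (S ^ 2 * X ^ 2) * (10 * l) := by ring
    _ ≤ (S ^ 2 * X ^ 2) * X := by gcongr
    _ = S ^ 2 * X ^ 3 := by ring

end nums

lemma ceil_le_two {x : ℝ} (hx : 1 ≤ x) : (⌈x⌉₊ : ℝ) ≤ 2 * x := by
  have h1 := (Nat.ceil_lt_add_one (show 0 ≤ x by linarith)).le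
  linarith

/-- Case II with `a = S ^ 2`, `X ≤ S ^ (1 / 20)`. -/
theorem case2_real (hU : UpStmt) (hLB : LB7) (hD2 : Dec2Stmt) {a b R r : ℕ}
    {lam : Fin a → ℕ} {S X : ℝ} (ha : 2 ≤ a) (hS2 : (a : ℝ) = S ^ 2) (hX : 100 ≤ X)
    (hlg : 10 * Real.log a ≤ X) (hSX : X ^ 20 ≤ S) (hb2 : b ≤ a ^ 2) (hb : S ^ 2 * X ^ 9 ≤ b)
    (hlam : Antitone lam) (hsum : ∑ i, lam i = a * b) (hr : 3 ≤ r) (hrR : r ≤ R)
    (hR : (R : ℝ) ≤ X ^ 2) (hlow : ((∑ i, low R lam i : ℕ) : ℝ) ≤ S ^ 3 * X ^ 6)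
    (hexR : (ex lam R : ℝ) ≤ S ^ 3 * X ^ 6)
    (hg : (ex lam r : ℝ) + S ^ 3 * X ^ 16 ≤ ex lam (r - 1)) :
    plethMult a b a lam ≤ plethMult b a a lam := by
  have hS := one_le_S hX hSX
  have hX1 : 1 ≤ X := by linarith
  obtain ⟨N0, hN0⟩ : ∃ N0 : ℕ, N0 = ⌈S ^ 2 * X ^ 3⌉₊ := ⟨_, rfl⟩
  obtain ⟨k0, hk0⟩ : ∃ k0 : ℕ, k0 = ⌈S * X ^ 7⌉₊ := ⟨_, rfl⟩
  have n1 : S ^ 2 * X ^ 3 ≤ N0 := by rw [hN0]; exact Nat.le_ceil _
  have n2 : (N0 : ℝ) ≤ 2 * (S ^ 2 * X ^ 3) := by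
    rw [hN0]
    exact ceil_le_two (one_le_mul_of_one_le_of_one_le (one_le_pow₀ (by linarith))
      (one_le_pow₀ hX1))
  have k1 : S * X ^ 7 ≤ k0 := by rw [hk0]; exact Nat.le_ceil _
  have k2 : (k0 : ℝ) ≤ 2 * (S * X ^ 7) := by
    rw [hk0]
    exact ceil_le_two (one_le_mul_of_one_le_of_one_le (by linarith) (one_le_pow₀ hX1))
  have hR0 : (0 : ℝ) ≤ R := Nat.cast_nonneg _
  have hN00 : (0 : ℝ) ≤ N0 := Nat.cast_nonneg _
  have hk00 : (0 : ℝ) ≤ k0 := Nat.cast_nonneg _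
  have m1 : R < a := by
    have h := num1 hX hSX hR
    rw [← hS2] at h
    exact_mod_cast h
  have m2 : 2 * R ≤ k0 := by
    have h := num2 hX hSX hR k1
    exact_mod_cast h
  have m3 : k0 ≤ a := by
    have h := num3 hX hSX k2
    rw [← hS2] at h
    exact_mod_cast h
  have m4 : a ≤ N0 := by
    have h := num4 hX n1
    rw [← hS2] at h
    exact_mod_cast h
  have m5 : 4 * N0 * (k0 + 2 * R) + 2 * a + ex lam r ≤ ex lam (r - 1) := by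
    have h := num5 hX hSX hR0 hR n2 k2 hk00
    rw [← hS2] at h
    have h1 : ((4 * N0 * (k0 + 2 * R) + 2 * a + ex lam r : ℕ) : ℝ) ≤ (ex lam (r - 1) : ℕ) := by
      push_cast
      linarith
    exact_mod_cast h1
  have m6 : 2 * (R * ex lam R + 2 * a * R ^ 2 + ∑ i, low R lam i) ≤ N0 * k0 := by
    have h := num6 hX hSX hR0 hR n1 k1 (L := ex lam R) (D := ((∑ i, low R lam i : ℕ) : ℝ))
      (Nat.cast_nonneg _) hexR hlow
    rw [← hS2] at h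
    exact_mod_cast h
  have m7 : 16 * R ^ 2 * N0 ≤ b := by
    have h := (num7 hX hR0 hR n2 hN00).trans hb
    exact_mod_cast h
  have m8 : 8 * R * (R + 5) ≤ k0 := by
    have h := num8 hX hSX hR0 hR k1
    exact_mod_cast h
  have m9 : 16 * R ^ 3 ≤ N0 := by
    have h := num9 hX hSX hR0 hR n1
    exact_mod_cast h
  have m10 : 10 ^ 7 * R ^ 2 * N0 ≤ k0 ^ 2 := by
    have h := num10 hX hSX hR0 hR n2 k1 hN00
    exact_mod_cast h
  have m11 := top_le (R := R) (N0 := N0) ha (by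
    have h := num11 hX hR n1 (l := Real.log a)
      (Real.log_nonneg (by exact_mod_cast (by omega : 1 ≤ a))) hlg
    rw [← hS2] at h
    exact h)
  exact case2_fin hU hLB hD2 hb2 hlam hsum hr hrR m1 m2 m3 m4 m5 m6 m7 m8 m9 m10 m11

/-- **Case II.** -/
theorem case2 (hU : UpStmt) (hLB : LB7) (hD2 : Dec2Stmt) (δ : ℝ) (hδ : 0 < δ)
    (hδ1 : δ ≤ 1 / 40) : ∀ᶠ a : ℕ in Filter.atTop, ∀ (b R r : ℕ) (lam : Fin a → ℕ), b ≤ a ^ 2 →
      (a : ℝ) ^ (1 + 9 * δ) ≤ b → Antitone lam → ∑ i, lam i = a * b → 3 ≤ r → r ≤ R →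
      (R : ℝ) ≤ (a : ℝ) ^ (2 * δ) → ((∑ i, low R lam i : ℕ) : ℝ) ≤ (a : ℝ) ^ (3 / 2 + 6 * δ) →
      (ex lam R : ℝ) ≤ (a : ℝ) ^ (3 / 2 + 6 * δ) →
      (ex lam r : ℝ) + (a : ℝ) ^ (3 / 2 + 16 * δ) ≤ ex lam (r - 1) →
      plethMult a b a lam ≤ plethMult b a a lam := by
  have hlim : ∀ᶠ a : ℕ in Filter.atTop, (100 : ℝ) ≤ (a : ℝ) ^ δ := by
    have h1 : Filter.Tendsto (fun a : ℕ => (a : ℝ) ^ δ) Filter.atTop Filter.atTop :=
      (tendsto_rpow_atTop hδ).comp tendsto_natCast_atTop_atTop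
    exact h1.eventually_ge_atTop _
  have hlog : ∀ᶠ a : ℕ in Filter.atTop, 10 * Real.log a ≤ (a : ℝ) ^ δ := by
    have h1 := (isLittleO_log_rpow_atTop hδ).bound (show (0 : ℝ) < 1 / 10 by norm_num)
    have h2 := tendsto_natCast_atTop_atTop (R := ℝ) |>.eventually h1
    filter_upwards [h2, Filter.eventually_ge_atTop 1] with a h3 ha
    have ha1 : (1 : ℝ) ≤ a := by exact_mod_cast ha
    rw [Real.norm_of_nonneg (Real.log_nonneg ha1), Real.norm_of_nonneg (by positivity)] at h3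
    linarith
  filter_upwards [hlim, hlog, Filter.eventually_ge_atTop 2] with a hX hlg ha b R r lam hb2 hb hlam
    hsum hr hrR hR hlow hexR hg
  have ha2 : (2 : ℝ) ≤ a := by exact_mod_cast ha
  have ha0 : (0 : ℝ) < a := by linarith
  have hS2 : (a : ℝ) = ((a : ℝ) ^ ((1 : ℝ) / 2)) ^ 2 := by
    rw [← Real.rpow_natCast, ← Real.rpow_mul ha0.le]
    norm_num
  have e1 : (a : ℝ) ^ (1 + 9 * δ) = ((a : ℝ) ^ ((1 : ℝ) / 2)) ^ 2 * ((a : ℝ) ^ δ) ^ 9 := by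
    rw [← rp (δ := δ) ha0 2 9]
    congr 1
    norm_num
  have e2 : (a : ℝ) ^ (3 / 2 + 6 * δ) = ((a : ℝ) ^ ((1 : ℝ) / 2)) ^ 3 * ((a : ℝ) ^ δ) ^ 6 := by
    rw [← rp (δ := δ) ha0 3 6]
    congr 1
  have e3 : (a : ℝ) ^ (3 / 2 + 16 * δ) = ((a : ℝ) ^ ((1 : ℝ) / 2)) ^ 3 * ((a : ℝ) ^ δ) ^ 16 := by
    rw [← rp (δ := δ) ha0 3 16]
    congr 1
  have e4 : (a : ℝ) ^ (2 * δ) = ((a : ℝ) ^ δ) ^ 2 := by
    have := rp (δ := δ) ha0 0 2
    rw [pow_zero, one_mul] at this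
    rw [← this]
    congr 1
    norm_num
  have hSX : ((a : ℝ) ^ δ) ^ 20 ≤ (a : ℝ) ^ ((1 : ℝ) / 2) := by
    have h1 := rp (δ := δ) ha0 0 20
    rw [pow_zero, one_mul] at h1
    rw [← h1]
    apply Real.rpow_le_rpow_of_exponent_le (by linarith)
    push_cast
    linarith
  rw [e1] at hb
  rw [e2] at hlow hexR
  rw [e3] at hg
  rw [e4] at hR
  exact case2_real hU hLB hD2 ha hS2 hX hlg hSX hb2 hb hlam hsum hr hrR hR hlow hexR hg

/-- **Case II** from the reduction. -/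
theorem caseII_of (hU : UpStmt) (hLB : LB7) (hD2 : Dec2Stmt) : CaseII := by
  intro δ hδ hδ1
  have hlim : ∀ᶠ a : ℕ in Filter.atTop, (2 : ℝ) ≤ (a : ℝ) ^ (1 / 2 : ℝ) := by
    have h1 : Filter.Tendsto (fun a : ℕ => (a : ℝ) ^ (1 / 2 : ℝ)) Filter.atTop Filter.atTop :=
      (tendsto_rpow_atTop (by norm_num)).comp tendsto_natCast_atTop_atTop
    exact h1.eventually_ge_atTop _
  filter_upwards [case2 hU hLB hD2 δ hδ (by linarith), hlim, Filter.eventually_ge_atTop 1] with a h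
    h2 ha b R r lam hb2 hb hlam hsum hR hlow hr hrR hg
  have ha1 : (1 : ℝ) ≤ a := by exact_mod_cast ha
  have ha0 : (0 : ℝ) < a := by linarith
  have hRa : R < a := by
    have h3 : (a : ℝ) ^ (2 * δ) ≤ (a : ℝ) ^ (1 / 2 : ℝ) :=
      Real.rpow_le_rpow_of_exponent_le ha1 (by linarith)
    have h4 : (a : ℝ) ^ (1 / 2 : ℝ) * (a : ℝ) ^ (1 / 2 : ℝ) = a := by
      rw [← Real.rpow_add ha0]
      norm_num
    have h5 : (R : ℝ) < a := by nlinarith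
    exact_mod_cast h5
  have hex : ex lam R ≤ below R lam := by
    unfold below
    exact Finset.single_le_sum (f := fun i => ex lam i) (fun i _ => Nat.zero_le _)
      (Finset.mem_Ico.2 ⟨le_rfl, hRa⟩)
  have hex' : (ex lam R : ℝ) ≤ below R lam := by exact_mod_cast hex
  refine h b R r lam hb2 hb hlam hsum hr hrR hR ?_ (by linarith) hg
  rw [← below_eq hRa.le lam]
  exact hlow.le

end Vale.Agent.P181.H503
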