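import Vale.Agent.P181.H503.CaseIIFin

set_option autoImplicit false

/-!
# P181, T8: case II with general thresholds

Many columns of one exact length `r` with `(r - 1) t ≥ 1`: threshold `a^(1+t)`.
-/

namespace Vale.Agent.P181.H503

open Vale.Agent.P181.T4 Vale.Agent.P181.T7 Vale.Agent.P181.H280 Vale.Agent.P181.H463

/-- **(LB7k)** (owner 310) the types of the columns of length exactly `r`, general degree. -/
def LB7k : Prop := ∀ (a k B n r N top : ℕ) (mu : Fin n → ℕ), Antitone mu → ∑ i, mu i = k * B →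
  n ≤ a → a ≤ N → 3 ≤ r → r ≤ n → 8 * r * (r + 5) ≤ k → 16 * r ^ 3 ≤ N →
  ex mu r + 4 * N * k ≤ ex mu (r - 1) → ex mu 0 ≤ 2 * (ex mu (r - 1) - ex mu r) →
  2 * ∑ i, low r mu i ≤ N * k → 2000 * (64 * r ^ 2) ^ (r - 1) * N ≤ k ^ (r - 1) →
  (top : ℝ) * ((k : ℝ) + 1) ^ a ≤ Real.exp N →
  top * gt (n - r) a (low r mu) ≤ plethMult B k n mu

/-- **(Case II, threshold `a^(1+t)`)** -/
def CaseII8 : Prop := ∀ δ t : ℝ, 0 < δ → δ ≤ 1 / 100 → 0 < t → t ≤ 1 / 2 →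
  ∀ᶠ a : ℕ in Filter.atTop, ∀ (b R r : ℕ) (lam : Fin a → ℕ), b ≤ a ^ 2 →
  (a : ℝ) ^ (1 + 9 * δ) ≤ b → Antitone lam → ∑ i, lam i = a * b →
  (R : ℝ) ≤ (a : ℝ) ^ (2 * δ) → (below R lam : ℝ) < (a : ℝ) ^ (1 + t + 6 * δ) →
  3 ≤ r → r ≤ R → 1 ≤ ((r : ℝ) - 1) * t →
  (ex lam r : ℝ) + (a : ℝ) ^ (1 + t + 16 * δ) ≤ ex lam (r - 1) →
  plethMult a b a lam ≤ plethMult b a a lam

/-- **Case II, finite form.** -/
theorem case8_fin (hU : UpStmt) (hLB : LB7k) (hD2 : Dec2Stmt) {a b R r N0 k0 : ℕ}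
    {lam : Fin a → ℕ} (hb2 : b ≤ a ^ 2) (hlam : Antitone lam) (hsum : ∑ i, lam i = a * b)
    (hr : 3 ≤ r) (hrR : r ≤ R) (hRa : R < a) (hk0 : 2 * R ≤ k0) (hk0a : k0 ≤ a) (hN0 : a ≤ N0)
    (hroom : 4 * N0 * (k0 + 2 * R) + 2 * a + ex lam r ≤ ex lam (r - 1))
    (hZ : 2 * (R * ex lam R + 2 * a * R ^ 2 + ∑ i, low R lam i) ≤ N0 * k0)
    (hb : 16 * R ^ 2 * N0 ≤ b) (hk : 8 * R * (R + 5) ≤ k0) (hRN : 16 * R ^ 3 ≤ N0)
    (hkN : 2000 * (64 * r ^ 2) ^ (r - 1) * N0 ≤ k0 ^ (r - 1))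
    (htop : ((a : ℝ) ^ 3 + 1) ^ (2 * a * R) * ((a : ℝ) + 1) ^ a ≤ Real.exp N0) :
    plethMult a b a lam ≤ plethMult b a a lam := by
  obtain ⟨N, k, mu, hmu, hsmu, hk1, hk2, hka, heq, hy, h0, hlow, hle⟩ := hD2 a b R r N0 k0 lam hlam
    hsum (by omega) hrR hRa hk0 hk0a (by omega) hroom hZ hb
  have hab : a * b ≤ a ^ 3 := by
    calc a * b ≤ a * a ^ 2 := Nat.mul_le_mul_left _ hb2
      _ = a ^ 3 := by ring
  have hN0b : N0 ≤ b := by
    have h1 : 1 ≤ R ^ 2 := Nat.one_le_pow _ _ (by omega)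
    nlinarith
  have hN0k : N0 * k0 ≤ a ^ 3 := by
    calc N0 * k0 ≤ b * a := Nat.mul_le_mul hN0b hk0a
      _ = a * b := mul_comm _ _
      _ ≤ _ := hab
  have hra : r ≤ a := by omega
  have hexr : ex mu r ≤ a ^ 3 := by
    by_cases hra' : r < a
    · have h1 : ex mu r ≤ ∑ i, low r mu i := by
        have h2 := ex_le_sum (low r mu) 0
        rwa [ex_low, add_zero] at h2
      omega
    · omega
  have hex0 : ex lam 0 ≤ a ^ 3 := (ex_le_sum lam 0).trans (by omega)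
  -- the upper bound
  have h1 := upper hU (b := b) hRa.le hlam
  have h2 := lower_cmp hrR hRa.le hmu heq hexr
  have h3 : plethMult a b a lam ≤ (a ^ 3 + 1) ^ (2 * a * R) * gt (a - r) a (low r mu) := by
    calc plethMult a b a lam ≤ (ex lam 0 + 1) ^ (a * R) * gt (a - R) a (low R lam) := h1
      _ ≤ (a ^ 3 + 1) ^ (a * R) * ((a ^ 3 + 1) ^ (a * (R - r)) * gt (a - r) a (low r mu)) :=
        Nat.mul_le_mul (Nat.pow_le_pow_left (by omega) _) h2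
      _ = (a ^ 3 + 1) ^ (a * R + a * (R - r)) * gt (a - r) a (low r mu) := by
        rw [pow_add, mul_assoc]
      _ ≤ _ := by
        apply Nat.mul_le_mul_right
        apply Nat.pow_le_pow_right (by omega)
        have : a * (R - r) ≤ a * R := Nat.mul_le_mul_left _ (Nat.sub_le _ _)
        nlinarith
  -- LB7
  have c1 : 8 * r * (r + 5) ≤ k := by
    refine le_trans ?_ (hk.trans hk1)
    exact Nat.mul_le_mul (Nat.mul_le_mul_left _ hrR) (Nat.add_le_add_right hrR 5)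
  have c2 : 16 * r ^ 3 ≤ N0 :=
    (Nat.mul_le_mul_left 16 (Nat.pow_le_pow_left hrR 3)).trans hRN
  have c3 : 2 * ∑ i, low r mu i ≤ N0 * k :=
    ((Nat.mul_le_mul_left 2 hlow).trans hZ).trans (Nat.mul_le_mul_left _ hk1)
  have c4 : 2000 * (64 * r ^ 2) ^ (r - 1) * N0 ≤ k ^ (r - 1) :=
    hkN.trans (Nat.pow_le_pow_left hk1 _)
  obtain ⟨T, hT⟩ : ∃ T : ℕ, T = (a ^ 3 + 1) ^ (2 * a * R) := ⟨_, rfl⟩
  rw [← hT] at h3
  have c5 : (T : ℝ) * ((k : ℝ) + 1) ^ a ≤ Real.exp N0 := by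
    refine le_trans ?_ htop
    rw [hT]
    push_cast
    have h5 : (k : ℝ) ≤ a := by exact_mod_cast hka
    gcongr
  have h4 := hLB a k N a r N0 T mu hmu hsmu le_rfl hN0 hr hra c1 c2 hy h0 c3 c4 c5
  exact h3.trans (h4.trans hle)

section nums8

variable {A T X R N K : ℝ} (hX : 5000 ≤ X) (hT : 1 ≤ T) (hTA : T * X ^ 9 ≤ A) (hR0 : 0 ≤ R)
  (hR : R ≤ X ^ 2) (n1 : A * X ^ 3 ≤ N) (n2 : N ≤ 2 * (A * X ^ 3)) (k1 : T * X ^ 7 ≤ K)
  (k2 : K ≤ 2 * (T * X ^ 7))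

include hX in
lemma hpow8 (i j : ℕ) (h : i ≤ j) : X ^ i ≤ X ^ j := pow_le_pow_right₀ (by linarith) h

include hX hT hTA in
lemma X_le_A : X ^ 9 ≤ A := by
  have hX0 : 0 < X := by linarith
  calc X ^ 9 = 1 * X ^ 9 := (one_mul _).symm
    _ ≤ T * X ^ 9 := by gcongr
    _ ≤ A := hTA

include hX hT hTA hR in
lemma o1 : R < A := by
  have h1 := X_le_A hX hT hTA
  have hX0 : 0 < X := by linarith
  have h2 : X ^ 2 < X ^ 9 := pow_lt_pow_right₀ (by linarith) (by norm_num)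
  linarith

include hX hT hR k1 in
lemma o2 : 2 * R ≤ K := by
  have hX0 : 0 < X := by linarith
  refine le_trans ?_ k1
  calc 2 * R ≤ X * X ^ 2 := by
        have : (2 : ℝ) ≤ X := by linarith
        calc 2 * R ≤ 2 * X ^ 2 := by linarith
          _ ≤ X * X ^ 2 := by gcongr
    _ = 1 * X ^ 3 := by ring
    _ ≤ T * X ^ 7 := by
      have h3 := hpow8 hX 3 7 (by norm_num)
      gcongr

include hX hT hTA k2 in
lemma o3 : K ≤ A := by
  have hX0 : 0 < X := by linarith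
  refine k2.trans (le_trans ?_ hTA)
  calc 2 * (T * X ^ 7) ≤ X ^ 2 * (T * X ^ 7) := by
        have : (2 : ℝ) ≤ X ^ 2 := by nlinarith
        gcongr
    _ = T * X ^ 9 := by ring

include hX hT hTA n1 in
lemma o4 : A ≤ N := by
  have h1 : 1 ≤ X ^ 3 := one_le_pow₀ (by linarith)
  have h2 := X_le_A hX hT hTA
  have hX0 : 0 < X := by linarith
  have h3 : 0 < A := lt_of_lt_of_le (by positivity) h2
  nlinarith

include hX hT hTA hR n2 k2 hR0 in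
lemma o5 (hK0 : 0 ≤ K) :
    4 * N * (K + 2 * R) + 2 * A ≤ A * T * X ^ 16 := by
  have hX0 : 0 < X := by linarith
  have hA0 : 0 < A := lt_of_lt_of_le (by positivity) (X_le_A hX hT hTA)
  have hT0 : 0 < T := by linarith
  have h2 : K + 2 * R ≤ 4 * (T * X ^ 7) := by
    have h3 : 2 * R ≤ T * X ^ 7 := o2 hX hT hR le_rfl
    have h4 : 0 < T * X ^ 7 := by positivity
    linarith
  have h5 : 4 * N * (K + 2 * R) ≤ 4 * (2 * (A * X ^ 3)) * (4 * (T * X ^ 7)) := by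
    gcongr
  have h6 : 4 * (2 * (A * X ^ 3)) * (4 * (T * X ^ 7)) = 32 * (A * T * X ^ 10) := by ring
  have h7 : A ≤ A * T * X ^ 10 := by
    have h9 : 1 ≤ X ^ 10 := one_le_pow₀ (by linarith)
    calc A = A * 1 * 1 := by ring
      _ ≤ A * T * X ^ 10 := by gcongr
  have h8 : 34 * (A * T * X ^ 10) ≤ A * T * X ^ 16 := by
    have h9 : (34 : ℝ) ≤ X ^ 6 := by
      calc (34 : ℝ) ≤ X ^ 1 := by rw [pow_one]; linarith
        _ ≤ X ^ 6 := hpow8 hX 1 6 (by norm_num)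
    calc 34 * (A * T * X ^ 10) ≤ X ^ 6 * (A * T * X ^ 10) := by gcongr
      _ = _ := by ring
  linarith

include hX hT hTA hR n1 k1 hR0 in
lemma o6 {L D : ℝ} (hL0 : 0 ≤ L) (hL : L ≤ A * T * X ^ 6) (hD : D ≤ A * T * X ^ 6) :
    2 * (R * L + 2 * A * R ^ 2 + D) ≤ N * K := by
  have hX0 : 0 < X := by linarith
  have hA0 : 0 < A := lt_of_lt_of_le (by positivity) (X_le_A hX hT hTA)
  have hT0 : 0 < T := by linarith
  have hNk : A * T * X ^ 10 ≤ N * K := by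
    calc A * T * X ^ 10 = (A * X ^ 3) * (T * X ^ 7) := by ring
      _ ≤ _ := mul_le_mul n1 k1 (by positivity) (le_trans (by positivity) n1)
  refine le_trans ?_ hNk
  have h2 : R * L ≤ X ^ 2 * (A * T * X ^ 6) := by gcongr
  have h3 : 2 * A * R ^ 2 ≤ 2 * (A * T * X ^ 8) := by
    have h4 : A * R ^ 2 ≤ A * (X ^ 2) ^ 2 := by gcongr
    have h5 : A * (X ^ 2) ^ 2 = A * 1 * X ^ 4 := by ring
    have h6 : A * 1 * X ^ 4 ≤ A * T * X ^ 8 := by
      have h8 : X ^ 4 ≤ X ^ 8 := hpow8 hX 4 8 (by norm_num)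
      gcongr
    linarith
  have h4 : A * T * X ^ 6 ≤ A * T * X ^ 8 := by
    have := hpow8 hX 6 8 (by norm_num)
    gcongr
  have h5 : X ^ 2 * (A * T * X ^ 6) = A * T * X ^ 8 := by ring
  have h6 : 8 * (A * T * X ^ 8) ≤ A * T * X ^ 10 := by
    have h7 : (8 : ℝ) ≤ X ^ 2 := by nlinarith
    calc 8 * (A * T * X ^ 8) ≤ X ^ 2 * (A * T * X ^ 8) := by gcongr
      _ = _ := by ring
  linarith

include hX hR n2 hR0 in
lemma o7 (hA0 : 0 < A) (hN0 : 0 ≤ N) : 16 * R ^ 2 * N ≤ A * X ^ 9 := by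
  have h2 : 16 * R ^ 2 * N ≤ 16 * (X ^ 2) ^ 2 * (2 * (A * X ^ 3)) := by gcongr
  have h3 : 16 * (X ^ 2) ^ 2 * (2 * (A * X ^ 3)) = 32 * (A * X ^ 7) := by ring
  have hX0 : 0 < X := by linarith
  have h4 : 32 * (A * X ^ 7) ≤ A * X ^ 9 := by
    have h7 : (32 : ℝ) ≤ X ^ 2 := by nlinarith
    calc 32 * (A * X ^ 7) ≤ X ^ 2 * (A * X ^ 7) := by gcongr
      _ = _ := by ring
  linarith

include hX hT hR k1 hR0 in
lemma o8 : 8 * R * (R + 5) ≤ K := by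
  refine le_trans ?_ k1
  have hX0 : 0 < X := by linarith
  have h2 : 8 * R * (R + 5) ≤ 8 * X ^ 2 * (X ^ 2 + 5) := by gcongr
  have h3 : 8 * X ^ 2 * (X ^ 2 + 5) ≤ 48 * X ^ 4 := by
    have h4 : 1 ≤ X ^ 2 := one_le_pow₀ (by linarith)
    have h5 : X ^ 4 = X ^ 2 * X ^ 2 := by ring
    rw [h5]
    nlinarith
  have h6 : 48 * X ^ 4 ≤ X ^ 7 := by
    have h7 : (48 : ℝ) ≤ X ^ 3 := by
      calc (48 : ℝ) ≤ X ^ 1 := by rw [pow_one]; linarith
        _ ≤ X ^ 3 := hpow8 hX 1 3 (by norm_num)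
    calc 48 * X ^ 4 ≤ X ^ 3 * X ^ 4 := by gcongr
      _ = _ := by ring
  have h8 : X ^ 7 ≤ T * X ^ 7 := by
    have h9 : 0 < X ^ 7 := by positivity
    nlinarith
  linarith

include hX hT hTA hR n1 hR0 in
lemma o9 : 16 * R ^ 3 ≤ N := by
  refine le_trans ?_ n1
  have hX0 : 0 < X := by linarith
  have hA := X_le_A hX hT hTA
  have h2 : 16 * R ^ 3 ≤ 16 * (X ^ 2) ^ 3 := by gcongr
  have h3 : 16 * (X ^ 2) ^ 3 = (16 * X ^ 3) * X ^ 3 := by ring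
  have h4 : 16 * X ^ 3 ≤ A := by
    refine le_trans ?_ hA
    calc 16 * X ^ 3 ≤ X ^ 1 * X ^ 3 := by
          have : (16 : ℝ) ≤ X ^ 1 := by rw [pow_one]; linarith
          gcongr
      _ = X ^ 4 := by ring
      _ ≤ X ^ 9 := hpow8 hX 4 9 (by norm_num)
  rw [h3] at h2
  refine h2.trans ?_
  gcongr

include hX hT n2 k1 in
lemma o10 {r : ℕ} (hN0 : 0 ≤ N) (hr : 3 ≤ r) (hrX : (r : ℝ) ≤ X ^ 2)
    (hAT : A ≤ T ^ (r - 1)) :
    2000 * (64 * (r : ℝ) ^ 2) ^ (r - 1) * N ≤ K ^ (r - 1) := by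
  have hX0 : 0 < X := by linarith
  have hT0 : 0 < T := by linarith
  have h1 : 64 * (r : ℝ) ^ 2 ≤ X ^ 5 := by
    calc 64 * (r : ℝ) ^ 2 ≤ X * (X ^ 2) ^ 2 := by
          have : (64 : ℝ) ≤ X := by linarith
          gcongr
      _ = X ^ 5 := by ring
  have h3 : N ≤ 2 * (T ^ (r - 1) * X ^ 3) := by
    refine n2.trans ?_
    gcongr
  have h4 : 4000 * X ^ 3 ≤ (X ^ 2) ^ (r - 1) := by
    calc 4000 * X ^ 3 ≤ X * X ^ 3 := by
          have : (4000 : ℝ) ≤ X := by linarith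
          gcongr
      _ = X ^ 4 := by ring
      _ ≤ X ^ (2 * (r - 1)) := hpow8 hX _ _ (by omega)
      _ = _ := by rw [pow_mul]
  calc 2000 * (64 * (r : ℝ) ^ 2) ^ (r - 1) * N
      ≤ 2000 * (X ^ 5) ^ (r - 1) * (2 * (T ^ (r - 1) * X ^ 3)) := by gcongr
    _ = (T ^ (r - 1) * (X ^ 5) ^ (r - 1)) * (4000 * X ^ 3) := by ring
    _ ≤ (T ^ (r - 1) * (X ^ 5) ^ (r - 1)) * (X ^ 2) ^ (r - 1) := by gcongr
    _ = (T * X ^ 7) ^ (r - 1) := by
      rw [← mul_pow, ← mul_pow]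
      congr 1
      ring
    _ ≤ K ^ (r - 1) := by gcongr

include hX hR n1 in
lemma o11 {l : ℝ} (hA0 : 0 < A) (hl0 : 0 ≤ l) (hl : 10 * l ≤ X) :
    (8 * A * R + 2 * A) * l ≤ N := by
  refine le_trans ?_ n1
  have hX0 : 0 < X := by linarith
  have h1 : 8 * A * R + 2 * A ≤ 10 * (A * X ^ 2) := by
    have h2 : A * R ≤ A * X ^ 2 := by gcongr
    have h3 : A * 1 ≤ A * X ^ 2 := by
      have : 1 ≤ X ^ 2 := one_le_pow₀ (by linarith)
      gcongr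
    linarith
  calc (8 * A * R + 2 * A) * l ≤ (10 * (A * X ^ 2)) * l := by gcongr
    _ = (A * X ^ 2) * (10 * l) := by ring
    _ ≤ (A * X ^ 2) * X := by gcongr
    _ = A * X ^ 3 := by ring

end nums8

/-- Case II with `T = a ^ t`, `X = a ^ δ`. -/
theorem case8_real (hU : UpStmt) (hLB : LB7k) (hD2 : Dec2Stmt) {a b R r : ℕ}
    {lam : Fin a → ℕ} {T X : ℝ} (ha : 2 ≤ a) (hX : 5000 ≤ X) (hT : 1 ≤ T)
    (hTA : T * X ^ 9 ≤ a) (hAT : (a : ℝ) ≤ T ^ (r - 1))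
    (hlg : 10 * Real.log a ≤ X) (hb2 : b ≤ a ^ 2) (hb : (a : ℝ) * X ^ 9 ≤ b)
    (hlam : Antitone lam) (hsum : ∑ i, lam i = a * b) (hr : 3 ≤ r) (hrR : r ≤ R)
    (hR : (R : ℝ) ≤ X ^ 2) (hlow : ((∑ i, low R lam i : ℕ) : ℝ) ≤ a * T * X ^ 6)
    (hexR : (ex lam R : ℝ) ≤ a * T * X ^ 6)
    (hg : (ex lam r : ℝ) + a * T * X ^ 16 ≤ ex lam (r - 1)) :
    plethMult a b a lam ≤ plethMult b a a lam := by
  have hX1 : 1 ≤ X := by linarith
  have ha2 : (2 : ℝ) ≤ a := by exact_mod_cast ha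
  have ha0 : (0 : ℝ) < a := by linarith
  obtain ⟨N0, hN0⟩ : ∃ N0 : ℕ, N0 = ⌈(a : ℝ) * X ^ 3⌉₊ := ⟨_, rfl⟩
  obtain ⟨k0, hk0⟩ : ∃ k0 : ℕ, k0 = ⌈T * X ^ 7⌉₊ := ⟨_, rfl⟩
  have n1 : (a : ℝ) * X ^ 3 ≤ N0 := by rw [hN0]; exact Nat.le_ceil _
  have n2 : (N0 : ℝ) ≤ 2 * ((a : ℝ) * X ^ 3) := by
    rw [hN0]
    exact ceil_le_two (one_le_mul_of_one_le_of_one_le (by linarith) (one_le_pow₀ hX1))
  have k1 : T * X ^ 7 ≤ k0 := by rw [hk0]; exact Nat.le_ceil _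
  have k2 : (k0 : ℝ) ≤ 2 * (T * X ^ 7) := by
    rw [hk0]
    exact ceil_le_two (one_le_mul_of_one_le_of_one_le hT (one_le_pow₀ hX1))
  have hR0 : (0 : ℝ) ≤ R := Nat.cast_nonneg _
  have hN00 : (0 : ℝ) ≤ N0 := Nat.cast_nonneg _
  have hk00 : (0 : ℝ) ≤ k0 := Nat.cast_nonneg _
  have m1 : R < a := by
    have h := o1 hX hT hTA hR
    exact_mod_cast h
  have m2 : 2 * R ≤ k0 := by
    have h := o2 hX hT hR k1
    exact_mod_cast h
  have m3 : k0 ≤ a := by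
    have h := o3 hX hT hTA k2
    exact_mod_cast h
  have m4 : a ≤ N0 := by
    have h := o4 hX hT hTA n1
    exact_mod_cast h
  have m5 : 4 * N0 * (k0 + 2 * R) + 2 * a + ex lam r ≤ ex lam (r - 1) := by
    have h := o5 hX hT hTA hR0 hR n2 k2 hk00
    have h1 : ((4 * N0 * (k0 + 2 * R) + 2 * a + ex lam r : ℕ) : ℝ) ≤ (ex lam (r - 1) : ℕ) := by
      push_cast
      linarith
    exact_mod_cast h1
  have m6 : 2 * (R * ex lam R + 2 * a * R ^ 2 + ∑ i, low R lam i) ≤ N0 * k0 := by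
    have h := o6 hX hT hTA hR0 hR n1 k1 (L := ex lam R) (D := ((∑ i, low R lam i : ℕ) : ℝ))
      (Nat.cast_nonneg _) hexR hlow
    exact_mod_cast h
  have m7 : 16 * R ^ 2 * N0 ≤ b := by
    have h := (o7 hX hR0 hR n2 ha0 hN00).trans hb
    exact_mod_cast h
  have m8 : 8 * R * (R + 5) ≤ k0 := by
    have h := o8 hX hT hR0 hR k1
    exact_mod_cast h
  have m9 : 16 * R ^ 3 ≤ N0 := by
    have h := o9 hX hT hTA hR0 hR n1
    exact_mod_cast h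
  have m10 : 2000 * (64 * r ^ 2) ^ (r - 1) * N0 ≤ k0 ^ (r - 1) := by
    have hrX : (r : ℝ) ≤ X ^ 2 := le_trans (by exact_mod_cast hrR) hR
    have h := o10 hX hT n2 k1 hN00 hr hrX hAT
    exact_mod_cast h
  have m11 := top_le (R := R) (N0 := N0) ha (by
    have h := o11 hX hR n1 (l := Real.log a) ha0
      (Real.log_nonneg (by exact_mod_cast (by omega : 1 ≤ a))) hlg
    exact h)
  exact case8_fin hU hLB hD2 hb2 hlam hsum hr hrR m1 m2 m3 m4 m5 m6 m7 m8 m9 m10 m11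

/-- **Case II with general thresholds**, from `LB7k` and the reduction. -/
theorem caseII8_of (hU : UpStmt) (hLB : LB7k) (hD2 : Dec2Stmt) : CaseII8 := by
  intro δ t hδ hδ1 ht ht1
  have hlim : ∀ᶠ a : ℕ in Filter.atTop, (5000 : ℝ) ≤ (a : ℝ) ^ δ := by
    have h1 : Filter.Tendsto (fun a : ℕ => (a : ℝ) ^ δ) Filter.atTop Filter.atTop :=
      (tendsto_rpow_atTop hδ).comp tendsto_natCast_atTop_atTop
    exact h1.eventually_ge_atTop _
  have hlog : ∀ᶠ a : ℕ in Filter.atTop, 10 * Real.log a ≤ (a : ℝ) ^ δ := by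
    have h1 := (isLittleO_log_rpow_atTop hδ).bound (show (0 : ℝ) < 1 / 10 by norm_num)
    have h2 := tendsto_natCast_atTop_atTop (R := ℝ) |>.eventually h1
    filter_upwards [h2, Filter.eventually_ge_atTop 1] with a h3 ha
    have ha1 : (1 : ℝ) ≤ a := by exact_mod_cast ha
    rw [Real.norm_of_nonneg (Real.log_nonneg ha1), Real.norm_of_nonneg (by positivity)] at h3
    linarith
  filter_upwards [hlim, hlog, Filter.eventually_ge_atTop 2] with a hX hlg ha b R r lam hb2 hb hlam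
    hsum hR hlow hr hrR hrt hg
  have ha2 : (2 : ℝ) ≤ a := by exact_mod_cast ha
  have ha0 : (0 : ℝ) < a := by linarith
  have ha1 : (1 : ℝ) ≤ a := by linarith
  have en : ∀ n : ℕ, ((a : ℝ) ^ δ) ^ n = (a : ℝ) ^ ((n : ℝ) * δ) := by
    intro n
    rw [← Real.rpow_natCast, ← Real.rpow_mul ha0.le, mul_comm]
  have e1 : (a : ℝ) ^ (1 + 9 * δ) = (a : ℝ) * ((a : ℝ) ^ δ) ^ 9 := by
    rw [Real.rpow_add ha0, Real.rpow_one, en]
    norm_num
  have e2 : (a : ℝ) ^ (1 + t + 6 * δ) = (a : ℝ) * (a : ℝ) ^ t * ((a : ℝ) ^ δ) ^ 6 := by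
    rw [Real.rpow_add ha0, Real.rpow_add ha0, Real.rpow_one, en]
    norm_num
  have e3 : (a : ℝ) ^ (1 + t + 16 * δ) = (a : ℝ) * (a : ℝ) ^ t * ((a : ℝ) ^ δ) ^ 16 := by
    rw [Real.rpow_add ha0, Real.rpow_add ha0, Real.rpow_one, en]
    norm_num
  have e4 : (a : ℝ) ^ (2 * δ) = ((a : ℝ) ^ δ) ^ 2 := by
    rw [en]
    norm_num
  have hT : (1 : ℝ) ≤ (a : ℝ) ^ t := Real.one_le_rpow ha1 ht.le
  have hTA : (a : ℝ) ^ t * ((a : ℝ) ^ δ) ^ 9 ≤ a := by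
    rw [en, ← Real.rpow_add ha0]
    calc (a : ℝ) ^ (t + ((9 : ℕ) : ℝ) * δ) ≤ (a : ℝ) ^ (1 : ℝ) := by
          apply Real.rpow_le_rpow_of_exponent_le ha1
          push_cast
          linarith
      _ = a := Real.rpow_one _
  have hAT : (a : ℝ) ≤ ((a : ℝ) ^ t) ^ (r - 1) := by
    rw [← Real.rpow_natCast, ← Real.rpow_mul ha0.le]
    calc (a : ℝ) = (a : ℝ) ^ (1 : ℝ) := (Real.rpow_one _).symm
      _ ≤ _ := by
        apply Real.rpow_le_rpow_of_exponent_le ha1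
        rw [Nat.cast_sub (by omega : 1 ≤ r), Nat.cast_one, mul_comm]
        exact hrt
  have hRa : R < a := by
    have h : (R : ℝ) < a := o1 (R := (R : ℝ)) hX hT hTA (by rw [← e4]; exact hR)
    exact_mod_cast h
  have hex : ex lam R ≤ below R lam := by
    unfold below
    exact Finset.single_le_sum (f := fun i => ex lam i) (fun i _ => Nat.zero_le _)
      (Finset.mem_Ico.2 ⟨le_rfl, hRa⟩)
  have hex' : (ex lam R : ℝ) ≤ below R lam := by exact_mod_cast hex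
  rw [e1] at hb
  rw [e2] at hlow
  rw [e3] at hg
  rw [e4] at hR
  refine case8_real hU hLB hD2 ha hX hT hTA hAT hlg hb2 hb hlam hsum hr hrR hR ?_ (by linarith) hg
  rw [← below_eq hRa.le lam]
  exact hlow.le

/-- **Case II with general thresholds** from `LB7k`. -/
theorem caseII8 (hLB : LB7k) : CaseII8 := caseII8_of H539.up_stmt hLB dec2_stmt

end Vale.Agent.P181.H503
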