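import Vale.Agent.P181.H503.TypeNum
import Vale.Agent.P181.H503.CaseII8Fin

set_option autoImplicit false

/-!
# P181, (C): the one-level case
-/

namespace Vale.Agent.P181.H503

open Vale.Agent.P181.T4 Vale.Agent.P181.T7 Vale.Agent.P181.H280 Vale.Agent.P181.H463

/-- the count hypothesis of `lb7k` -/
lemma countR {m R0 R1 N k0 : ℕ} {v : ℕ → ℕ} (hm : 3 ≤ m) (hmR : m ≤ R1) (hRR : R1 ≤ R0)
    (h3 : 2000 * R0 ^ 3 ≤ k0)
    (hcount : 729 * N < ∏ i ∈ Finset.Ico 1 m,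
      (min (v i / (32 * R0 ^ 2 * N)) (k0 / (256 * R0 ^ 2)) + 1)) :
    2000 * (64 * R1 ^ 2) ^ (R1 - 1) * N ≤ k0 ^ (R1 - 1) := by
  obtain ⟨q, hq⟩ : ∃ q, q = k0 / (256 * R0 ^ 2) := ⟨_, rfl⟩
  rw [← hq] at hcount
  have hR0 : 1 ≤ R0 := by omega
  have hR2 : R0 ^ 2 ≤ R0 ^ 3 := Nat.pow_le_pow_right hR0 (by norm_num)
  have hR2' : 1 ≤ R0 ^ 2 := Nat.one_le_pow _ _ hR0
  have hq1 : 1 ≤ q := by
    rw [hq, Nat.le_div_iff_mul_le (by positivity)]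
    omega
  -- one factor
  have h4 : 64 * R1 ^ 2 * (2 * (q + 1)) ≤ k0 := by
    have h5 : q * (256 * R0 ^ 2) ≤ k0 := by rw [hq]; exact Nat.div_mul_le_self _ _
    have h6 : R1 ^ 2 ≤ R0 ^ 2 := Nat.pow_le_pow_left hRR 2
    calc 64 * R1 ^ 2 * (2 * (q + 1)) ≤ 64 * R0 ^ 2 * (2 * (q + q)) := by
          apply Nat.mul_le_mul (Nat.mul_le_mul_left _ h6)
          omega
      _ = q * (256 * R0 ^ 2) := by ring
      _ ≤ k0 := h5
  have h5 : ∏ i ∈ Finset.Ico 1 m, (min (v i / (32 * R0 ^ 2 * N)) q + 1) ≤ (q + 1) ^ (m - 1) := by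
    calc ∏ i ∈ Finset.Ico 1 m, (min (v i / (32 * R0 ^ 2 * N)) q + 1)
        ≤ ∏ _i ∈ Finset.Ico 1 m, (q + 1) :=
          Finset.prod_le_prod' (fun i _ => Nat.add_le_add_right (min_le_right _ _) 1)
      _ = (q + 1) ^ (m - 1) := by rw [Finset.prod_const, Nat.card_Ico]
  have h6 : 729 * N ≤ (q + 1) ^ (m - 1) := hcount.le.trans h5
  have h7 : (q + 1) ^ (m - 1) ≤ (q + 1) ^ (R1 - 1) := Nat.pow_le_pow_right (by omega) (by omega)
  have h8 : 4 ≤ 2 ^ (R1 - 1) := by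
    calc 4 = 2 ^ 2 := by norm_num
      _ ≤ 2 ^ (R1 - 1) := Nat.pow_le_pow_right (by norm_num) (by omega)
  calc 2000 * (64 * R1 ^ 2) ^ (R1 - 1) * N = (64 * R1 ^ 2) ^ (R1 - 1) * (2000 * N) := by ring
    _ ≤ (64 * R1 ^ 2) ^ (R1 - 1) * (4 * (729 * N)) := by
      apply Nat.mul_le_mul_left
      omega
    _ ≤ (64 * R1 ^ 2) ^ (R1 - 1) * (2 ^ (R1 - 1) * (q + 1) ^ (R1 - 1)) := by
      apply Nat.mul_le_mul_left
      exact Nat.mul_le_mul h8 (h6.trans h7)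
    _ = (64 * R1 ^ 2 * (2 * (q + 1))) ^ (R1 - 1) := by
      rw [← mul_pow, ← mul_pow]
    _ ≤ k0 ^ (R1 - 1) := Nat.pow_le_pow_left h4 _

/-- **the one-level case** -/
theorem caseR_nat : CaseRNat := by
  intro a b R0 R1 m k0 N lam hb2 hlam hsum hm hmR hRR hRa h2 h3 h4 h5 h6 h8 hcount htop
  have hR0 : 3 ≤ R0 := by omega
  have hR3 : R0 ≤ R0 ^ 3 := Nat.le_self_pow (by norm_num) _
  have hR2 : R0 ≤ R0 ^ 2 := Nat.le_self_pow (by norm_num) _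
  have hR23 : R0 ^ 2 ≤ R0 ^ 3 := Nat.pow_le_pow_right (by omega) (by norm_num)
  have haN : a ≤ N := by
    refine le_trans ?_ h5
    exact Nat.le_mul_of_pos_right _ (by omega)
  have hk0 : 1 ≤ k0 := by omega
  refine case8_fin H539.up_stmt lb7k dec2_stmt (R := R0) (r := R1) (N0 := N) (k0 := k0) hb2 hlam
    hsum (by omega) hRR hRa (by omega) (by omega) haN ?_ (le_trans (by omega) h6) ?_ ?_ ?_
    (countR hm hmR hRR h3 hcount) htop
  · -- room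
    have e1 : 2 * a ≤ 16 * N * (k0 + 2 * R0) := by
      have : N ≤ N * (k0 + 2 * R0) := Nat.le_mul_of_pos_right _ (by omega)
      calc 2 * a ≤ 16 * N := by omega
        _ ≤ 16 * (N * (k0 + 2 * R0)) := Nat.mul_le_mul_left _ this
        _ = _ := by ring
    have e2 : 20 * N * (k0 + 2 * R0) = 4 * N * (k0 + 2 * R0) + 16 * N * (k0 + 2 * R0) := by ring
    have e3 : 0 < N * (k0 + 2 * R0) := by
      apply Nat.mul_pos
      · omega
      · omega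
    have e4 : 20 * N * (k0 + 2 * R0) = 20 * (N * (k0 + 2 * R0)) := by ring
    omega
  · have e1 : 50 * R0 * (R0 + 1) * N = 50 * (R0 ^ 2 * N) + 50 * (R0 * N) := by ring
    have e2 : 16 * R0 ^ 2 * N = 16 * (R0 ^ 2 * N) := by ring
    rw [e2]
    rw [e1] at h8
    omega
  · calc 8 * R0 * (R0 + 5) = 8 * R0 ^ 2 + 40 * R0 := by ring
      _ ≤ k0 := by omega
  · omega

end Vale.Agent.P181.H503
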