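import Vale.Agent.P181.H412.Final7
import Vale.Agent.P181.R2.H280.NFinal

set_option autoImplicit false

/-!
# P181: partitions with at most `m` rows

The main theorem `FStmt` (many cells below the second row) and the tail theorem of the starting
files (few cells below the second row) together: for partitions with at most `m` rows Foulkes'
inequality holds for all `b ≥ a ^ (3 / 2 - 1 / (2 (m - 1)) + ε)`.
-/

namespace Vale.Agent.P181.H503

open Vale.Agent.P181.T4 Vale.Agent.P181.T7 Vale.Agent.P181.H280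

/-- The choice of the slope. -/
lemma slope_choice {n a b t : ℕ} {P : ℝ} (hn : 1 ≤ n) (ha : 1 ≤ a) (hP : P ^ n * a = b)
    (h1 : ((n : ℝ) + 1) * 2 ^ (n + 3) ≤ P) (h2 : 4 * (t : ℝ) * 2 ^ (n + 3) ≤ P * b) :
    ∃ s, 1 ≤ s ∧ t + (a - 1) * (2 * (s + n).choose (n + 1) - 1) ≤ s * b := by
  have hC : (0 : ℝ) < 2 ^ (n + 3) := by positivity
  have hn0 : (0 : ℝ) ≤ n := Nat.cast_nonneg _
  have hP0 : 0 < P := lt_of_lt_of_le (by positivity) h1
  have hx : (n : ℝ) + 1 ≤ P / 2 ^ (n + 3) := by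
    rw [le_div_iff₀ hC]
    exact h1
  obtain ⟨s, hs⟩ : ∃ s : ℕ, s = ⌊P / 2 ^ (n + 3)⌋₊ := ⟨_, rfl⟩
  have hs1 : (s : ℝ) ≤ P / 2 ^ (n + 3) := by
    rw [hs]
    exact Nat.floor_le (by positivity)
  have hs2 : P / 2 ^ (n + 3) < s + 1 := by
    rw [hs]
    exact Nat.lt_floor_add_one _
  have hns : n ≤ s := by
    have : (n : ℝ) < s + 1 := by linarith
    have h3 : (n : ℝ) < (s + 1 : ℕ) := by push_cast; linarith
    have h4 : n < s + 1 := by exact_mod_cast h3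
    omega
  have hs3 : 1 ≤ s := hn.trans hns
  have hs3' : (1 : ℝ) ≤ s := by exact_mod_cast hs3
  have hs4 : P / 2 ^ (n + 3) ≤ 2 * s := by linarith
  refine ⟨s, hs3, ?_⟩
  -- the power of `s`
  have hpow : (s : ℝ) ^ n * (2 ^ (n + 3) * a) ≤ b := by
    have h3 : (s : ℝ) ^ n ≤ (P / 2 ^ (n + 3)) ^ n := pow_le_pow_left₀ (by linarith) hs1 n
    have h4 : (P / 2 ^ (n + 3)) ^ n ≤ P ^ n / 2 ^ (n + 3) := by
      rw [div_pow]
      apply div_le_div_of_nonneg_left (by positivity) hC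
      calc (2 : ℝ) ^ (n + 3) = (2 ^ (n + 3)) ^ 1 := (pow_one _).symm
        _ ≤ (2 ^ (n + 3)) ^ n := by
          apply pow_le_pow_right₀ _ hn
          exact one_le_pow₀ (by norm_num)
    have ha0 : (0 : ℝ) ≤ a := Nat.cast_nonneg _
    calc (s : ℝ) ^ n * (2 ^ (n + 3) * a) ≤ (P ^ n / 2 ^ (n + 3)) * (2 ^ (n + 3) * a) := by
          gcongr
          exact h3.trans h4
      _ = P ^ n * a := by field_simp
      _ = b := hP
  have hch : (s + n).choose (n + 1) ≤ (2 * s) ^ (n + 1) :=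
    (Nat.choose_le_pow _ _).trans (Nat.pow_le_pow_left (by omega) _)
  have hch' : ((a - 1) * (2 * (s + n).choose (n + 1) - 1) : ℕ) ≤
      a * (2 * (2 * s) ^ (n + 1)) := by
    apply Nat.mul_le_mul (Nat.sub_le _ _)
    omega
  have h5 : ((a * (2 * (2 * s) ^ (n + 1)) : ℕ) : ℝ) ≤ s * b / 2 := by
    push_cast
    have h6 : (a : ℝ) * (2 * (2 * s) ^ (n + 1)) = ((s : ℝ) ^ n * (2 ^ (n + 3) * a)) * s / 2 := by
      rw [mul_pow, pow_succ (s : ℝ) n]
      ring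
    rw [h6]
    have h7 : ((s : ℝ) ^ n * (2 ^ (n + 3) * a)) * s ≤ b * s := by gcongr
    linarith
  have h8 : (t : ℝ) ≤ s * b / 2 := by
    have h9 : 4 * (t : ℝ) ≤ P / 2 ^ (n + 3) * b := by
      rw [div_mul_eq_mul_div, le_div_iff₀ hC]
      exact h2
    have hb0 : (0 : ℝ) ≤ b := Nat.cast_nonneg _
    have h10 : P / 2 ^ (n + 3) * b ≤ 2 * s * b := by gcongr
    linarith
  have h9 : ((t + (a - 1) * (2 * (s + n).choose (n + 1) - 1) : ℕ) : ℝ) ≤ ((s * b : ℕ) : ℝ) := by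
    have h10 : (((a - 1) * (2 * (s + n).choose (n + 1) - 1) : ℕ) : ℝ) ≤ s * b / 2 :=
      le_trans (by exact_mod_cast hch') h5
    rw [Nat.cast_add, Nat.cast_mul s b]
    linarith
  exact_mod_cast h9

lemma cells2_eq {n : ℕ} (lam : Fin (n + 2) → ℕ) :
    cells2 lam = ∑ i : Fin n, lam i.succ.succ := by
  unfold cells2
  rw [Finset.sum_filter, Fin.sum_univ_succ, Fin.sum_univ_succ]
  simp

/-- **At most `n + 2` rows.** -/
theorem few_rows_aux (hF : FStmt) (hP : PadStmt) (hZ : ZeroStmt) (n : ℕ) (hn : 1 ≤ n) (ε : ℝ)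
    (hε : 0 < ε) : ∃ a₀ : ℕ, ∀ a ≥ a₀, ∀ (b : ℕ) (lam : Fin (n + 2) → ℕ),
      (a : ℝ) ^ (1 + (n : ℝ) / (2 * (n + 1)) + ε) ≤ b →
      plethMult a b (n + 2) lam ≤ plethMult b a (n + 2) lam := by
  have hn1 : (1 : ℝ) ≤ n := by exact_mod_cast hn
  have hn0 : (0 : ℝ) < n := by linarith
  have hlim : ∀ δ : ℝ, 0 < δ → ∀ C : ℝ, ∀ᶠ a : ℕ in Filter.atTop, C ≤ (a : ℝ) ^ δ := by
    intro δ hδ C
    have h1 : Filter.Tendsto (fun a : ℕ => (a : ℝ) ^ δ) Filter.atTop Filter.atTop :=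
      (tendsto_rpow_atTop hδ).comp tendsto_natCast_atTop_atTop
    exact h1.eventually_ge_atTop C
  have hd : 0 < (1 : ℝ) / (2 * (n + 1)) + ε / n := by positivity
  obtain ⟨a₀, h⟩ := Filter.eventually_atTop.1 ((hF (ε / 2) (by positivity)).and
    ((hlim (ε / 2) (by positivity) (4 * 2 ^ (n + 3))).and
      ((hlim _ hd (((n : ℝ) + 1) * 2 ^ (n + 3))).and (Filter.eventually_ge_atTop 2))))
  refine ⟨a₀, fun a haa b lam hb => ?_⟩
  obtain ⟨hFa, hC1, hC2, ha⟩ := h a haa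
  have ha1 : (1 : ℝ) ≤ a := by exact_mod_cast (by omega : 1 ≤ a)
  have ha0 : (0 : ℝ) < a := by linarith
  set β : ℝ := 1 + (n : ℝ) / (2 * (n + 1)) + ε with hβ
  by_cases hD : (a : ℝ) ^ (3 / 2 + ε / 2) ≤ (cells2 lam : ℕ)
  · -- the main theorem
    refine all_n_cond hP hZ (fun D => (a : ℝ) ^ (3 / 2 + ε / 2) ≤ (D : ℝ)) ?_ _ lam hD
    intro mu hmu hsum hQ
    apply hFa b _ mu hmu hsum
    · rw [below_two]
      exact hQ
    · refine le_trans (Real.rpow_le_rpow_of_exponent_le ha1 ?_) hb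
      have : 0 ≤ (n : ℝ) / (2 * (n + 1)) := by positivity
      rw [hβ]
      linarith
  · -- the tail theorem
    push Not at hD
    have hb0 : (0 : ℝ) ≤ b := Nat.cast_nonneg _
    have hba : (0 : ℝ) ≤ (b : ℝ) / a := by positivity
    set P : ℝ := ((b : ℝ) / a) ^ ((1 : ℝ) / n) with hPd
    have hPn : P ^ n * a = b := by
      rw [hPd, ← Real.rpow_natCast, ← Real.rpow_mul hba, one_div_mul_cancel hn0.ne', Real.rpow_one]
      field_simp
    have hPge : (a : ℝ) ^ ((1 : ℝ) / (2 * (n + 1)) + ε / n) ≤ P := by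
      have h1 : (a : ℝ) ^ (β - 1) ≤ (b : ℝ) / a := by
        rw [le_div_iff₀ ha0, Real.rpow_sub_one ha0.ne', div_mul_cancel₀ _ ha0.ne']
        exact hb
      have h2 := Real.rpow_le_rpow (by positivity) h1 (show 0 ≤ (1 : ℝ) / n by positivity)
      rw [← Real.rpow_mul ha0.le] at h2
      refine le_trans (le_of_eq ?_) h2
      congr 1
      rw [hβ]
      field_simp
      ring
    have h4 : 4 * ((cells2 lam : ℕ) : ℝ) * 2 ^ (n + 3) ≤ P * b := by
      have h5 : 4 * ((cells2 lam : ℕ) : ℝ) * 2 ^ (n + 3) ≤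
          (a : ℝ) ^ (3 / 2 + ε / 2) * (a : ℝ) ^ (ε / 2) := by
        calc 4 * ((cells2 lam : ℕ) : ℝ) * 2 ^ (n + 3) = ((cells2 lam : ℕ) : ℝ) * (4 * 2 ^ (n + 3)) := by
              ring
          _ ≤ (a : ℝ) ^ (3 / 2 + ε / 2) * (a : ℝ) ^ (ε / 2) := by gcongr
      have h6 : (a : ℝ) ^ ((1 : ℝ) / (2 * (n + 1)) + ε / n) * (a : ℝ) ^ β ≤ P * b := by gcongr
      refine h5.trans (le_trans ?_ h6)
      rw [← Real.rpow_add ha0, ← Real.rpow_add ha0]
      apply Real.rpow_le_rpow_of_exponent_le ha1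
      have h7 : (1 : ℝ) / (2 * (n + 1)) + (n : ℝ) / (2 * (n + 1)) = 1 / 2 := by
        field_simp
        ring
      have h8 : 0 ≤ ε / n := by positivity
      rw [hβ]
      linarith
    obtain ⟨s, hs1, hs2⟩ := slope_choice (t := cells2 lam) hn (by omega : 1 ≤ a) hPn
      (hC2.trans hPge) h4
    have hK : TN.KK n a b (∑ i : Fin n, lam i.succ.succ) := by
      rw [← cells2_eq]
      exact TN.KK_all (N := a - 1) (by omega) (by omega) ⟨s, hs1, hs2⟩
    exact TN.plethMult_of_KK lam hK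

/-- **Foulkes' inequality for all partitions with at most `m` rows, for all
`b ≥ a ^ (3 / 2 - 1 / (2 (m - 1)) + ε)`.** -/
theorem few_rows (hF : FStmt) (hP : PadStmt) (hZ : ZeroStmt) (m : ℕ) (hm : 3 ≤ m) (ε : ℝ)
    (hε : 0 < ε) : ∃ a₀ : ℕ, ∀ a ≥ a₀, ∀ (b : ℕ) (lam : Fin m → ℕ),
      (a : ℝ) ^ (3 / 2 - 1 / (2 * ((m : ℝ) - 1)) + ε) ≤ b →
      plethMult a b m lam ≤ plethMult b a m lam := by
  obtain ⟨n, rfl⟩ := Nat.exists_eq_add_of_le' (show 2 ≤ m by omega)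
  obtain ⟨a₀, h⟩ := few_rows_aux hF hP hZ n (by omega) ε hε
  refine ⟨a₀, fun a ha b lam hb => h a ha b lam ?_⟩
  refine le_trans (le_of_eq ?_) hb
  congr 1
  have hn0 : (0 : ℝ) ≤ n := Nat.cast_nonneg _
  have h1 : (((n + 2 : ℕ) : ℝ) - 1) = n + 1 := by push_cast; ring
  rw [h1]
  field_simp
  ring

end Vale.Agent.P181.H503
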