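import Vale.Agent.P181.H503.TypeAll
import Vale.Agent.P181.H412.Nat10
import Vale.Agent.P181.H310.LBg
import Vale.Agent.P181.H59.Des6All

set_option autoImplicit false

/-!
# P181: the natural limit of the type count, unconditional
-/

namespace Vale.Agent.P181.H503

open Vale.Agent.P181.T4 Vale.Agent.P181.T7 Vale.Agent.P181.H280 Vale.Agent.P181.H463

/-- one constant for all `m`, all `a`, all `n` -/
theorem nat_all (ε : ℝ) (hε : 0 < ε) : ∃ C : ℝ, 1 ≤ C ∧ ∀ (a b n : ℕ) (lam : Fin n → ℕ),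
    C * (a : ℝ) ^ (1 + ε) ≤ b →
    (∃ m : ℕ, C * (a : ℝ) ^ (1 + m * (1 + ε)) ≤
      ∏ i ∈ Finset.Ico 1 (m + 1), min (ex lam i : ℝ) ((a : ℝ) ^ 2)) →
    plethMult a b n lam ≤ plethMult b a n lam :=
  H412.nat_const typeStmt (T8.caseI_zero H59.Des6All.lb9) ε hε

end Vale.Agent.P181.H503
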