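import Vale.Agent.P181.H503.TypeFin
import Vale.Agent.P181.H503.CaseR
import Vale.Agent.P181.H699.CaseC
import Vale.Agent.P181.H412.LB10
import Vale.Agent.P181.H411.TypB
import Vale.Agent.P181.H921.DecB
import Vale.Agent.P181.H921.TotB

set_option autoImplicit false

/-!
# P181, (C): `TypeStmt`, unconditional
-/

namespace Vale.Agent.P181.H503

open Vale.Agent.P181.T4 Vale.Agent.P181.T7

theorem lb10 : T9.LB10 := H412.lb10 H411.TypB.typB H411.TypB.cardB T9.totB

theorem caseC_nat : CaseCNat := by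
  intro a b R0 R1 l m k0 N lam hb2 hlam hsum h2l hlR hm hR hRa hmax hmax1 h1 h2 h3 h4 h5 h6 h7 h8
    hc ht
  exact H699.CC.caseC_nat lb10 T9.decB H539.up_stmt hb2 hlam hsum h2l hlR hm hR hRa hmax hmax1 h1
    h2 h3 (by omega) h5 h6 h7 h8 hc ht

/-- **(C)**: types of heavy rows of unequal sizes. -/
theorem typeStmt : T9.TypeStmt := typeStmt_of caseC_nat caseR_nat

end Vale.Agent.P181.H503
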