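import Vale.Agent.P181.H503.TypeNum
import Vale.Agent.P181.H503.CaseII

set_option autoImplicit false

/-!
# P181, (C): `TypeStmt` from the two finite statements
-/

namespace Vale.Agent.P181.H503

open Vale.Agent.P181.T4 Vale.Agent.P181.T7 Vale.Agent.P181.H280 Vale.Agent.P181.H463

lemma top4_le {a R N : ℕ} (ha : 2 ≤ a)
    (h : (10 * (a : ℝ) * R + 2 * a) * Real.log a ≤ N) :
    ((a : ℝ) ^ 4 + 1) ^ (2 * a * R) * ((a : ℝ) + 1) ^ a ≤ Real.exp N := by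
  have ha2 : (2 : ℝ) ≤ a := by exact_mod_cast ha
  have ha0 : (0 : ℝ) < a := by linarith
  have h1 : (a : ℝ) ^ 4 + 1 ≤ (a : ℝ) ^ 5 := by
    have h2 : (1 : ℝ) ≤ (a : ℝ) ^ 4 := one_le_pow₀ (by linarith)
    have h3 : (a : ℝ) ^ 5 = (a : ℝ) ^ 4 * a := by ring
    rw [h3]
    nlinarith
  have h2 : (a : ℝ) + 1 ≤ (a : ℝ) ^ 2 := by nlinarith
  calc ((a : ℝ) ^ 4 + 1) ^ (2 * a * R) * ((a : ℝ) + 1) ^ a
      ≤ ((a : ℝ) ^ 5) ^ (2 * a * R) * ((a : ℝ) ^ 2) ^ a := by gcongr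
    _ = (a : ℝ) ^ (10 * a * R + 2 * a) := by
      rw [← pow_mul, ← pow_mul, ← pow_add]
      congr 1
      ring
    _ = Real.exp ((10 * (a : ℝ) * R + 2 * a) * Real.log a) := by
      rw [← Real.rpow_natCast, Real.rpow_def_of_pos ha0]
      congr 1
      push_cast
      ring
    _ ≤ Real.exp N := Real.exp_le_exp.2 h

section reals

variable {A X E N R L K G G1 U b : ℝ} {M : ℕ}

/-- `X ^ 14 N ≤ G1` -/
lemma r3 (hX : 1000000 ≤ X) (k1 : X ^ 16 * N ≤ L) (hG : 0 ≤ G1) (g1 : L ≤ 2 * X * G1) :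
    X ^ 14 * N ≤ G1 := by
  have hX0 : 0 < X := by linarith
  have h1 : X ^ 2 * (X ^ 14 * N) ≤ X ^ 2 * G1 := by
    calc X ^ 2 * (X ^ 14 * N) = X ^ 16 * N := by ring
      _ ≤ L := k1
      _ ≤ 2 * X * G1 := g1
      _ = (2 * X ^ 1) * G1 := by ring
      _ ≤ X ^ 2 * G1 := by
        have := xstep (c := 2) hX (by norm_num) 1
        gcongr
  exact le_of_mul_le_mul_left h1 (by positivity)

lemma r4 (hX : 1000000 ≤ X) (hN : 0 ≤ N) (k3 : X ^ 14 * N ≤ G1) {c : ℝ} {i : ℕ}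
    (hc : c ≤ 1000000) (hi : i + 1 ≤ 14) : c * X ^ i * N ≤ G1 := by
  refine le_trans ?_ k3
  have h1 := (xstep hX hc i).trans (xpow hX hi)
  gcongr

/-- the left side of `h6` -/
lemma r6a (hX : 1000000 ≤ X) (hA : 1 ≤ A) (hE : 0 ≤ E) (hR0 : 0 ≤ R) (hR : R ≤ X)
    (hU0 : 0 ≤ U) (hU : U ≤ A * E) :
    8 * (R * U + 2 * A * R ^ 2 + A * E) ≤ 16 * (A * (X * E + X ^ 2)) := by
  have hX0 : 0 < X := by linarith
  have e1 : R * U ≤ X * (A * E) := by gcongr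
  have e2 : 2 * A * R ^ 2 ≤ 2 * A * X ^ 2 := by gcongr
  have e3 : A * E ≤ X * (A * E) := by
    have : 0 ≤ A * E := by positivity
    nlinarith
  nlinarith

lemma r6b (hX : 1000000 ≤ X) (hM : 36 ≤ M) (hA : 1 ≤ A) (hE : 0 ≤ E)
    (hD : X ^ M * (A * E) ≤ L) (hl : A * X ^ M ≤ L) (g1 : L ≤ 2 * X * G1) (hG : G1 ≤ G)
    (hGN : G ≤ 80 * (N * K)) : 16 * (A * (X * E + X ^ 2)) ≤ N * K := by
  have hX0 : 0 < X := by linarith
  have hXE : X * E + X ^ 2 ≤ X ^ 2 * (E + 1) := by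
    have : X * E ≤ X ^ 2 * E := by
      have := xpow hX (show 1 ≤ 2 by norm_num)
      rw [pow_one] at this
      gcongr
    linarith
  have h6 : X ^ M * (A * (E + 1)) ≤ 2 * L := by
    have : X ^ M * (A * (E + 1)) = X ^ M * (A * E) + A * X ^ M := by ring
    linarith
  have h8 : X ^ M * (A * (E + 1)) ≤ 4 * X * G := by
    have h1 : 2 * X * G1 ≤ 2 * X * G := by gcongr
    linarith
  have h9 : X ^ 6 * (A * (E + 1)) ≤ 4 * X * G := by
    refine le_trans ?_ h8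
    have := xpow hX (show 6 ≤ M by omega)
    gcongr
  have h10 : (4 * X ^ 1) * (X ^ 4 * (A * (E + 1))) ≤ (4 * X) * G := by
    have h11 := xstep (c := 4) hX (by norm_num) 1
    calc (4 * X ^ 1) * (X ^ 4 * (A * (E + 1))) ≤ X ^ 2 * (X ^ 4 * (A * (E + 1))) := by
          gcongr
      _ = X ^ 6 * (A * (E + 1)) := by ring
      _ ≤ _ := h9
  rw [pow_one] at h10
  have h11 : X ^ 4 * (A * (E + 1)) ≤ G := le_of_mul_le_mul_left h10 (by positivity)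
  have h12 : 80 * (16 * (A * (X ^ 2 * (E + 1)))) ≤ X ^ 4 * (A * (E + 1)) := by
    have h13 := (xstep (c := 1280) hX (by norm_num) 2).trans (xpow hX (show 3 ≤ 4 by norm_num))
    calc 80 * (16 * (A * (X ^ 2 * (E + 1)))) = (1280 * X ^ 2) * (A * (E + 1)) := by ring
      _ ≤ _ := by gcongr
  have h14 : 16 * (A * (X * E + X ^ 2)) ≤ 16 * (A * (X ^ 2 * (E + 1))) := by gcongr
  linarith

lemma r6c (hX : 1000000 ≤ X) (hA : 1 ≤ A) (hE : 0 ≤ E) (n1 : A * X ^ 3 + X ^ 2 * E ≤ N)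
    (h5 : A ≤ 4 * K) : 16 * (A * (X * E + X ^ 2)) ≤ N * K := by
  have hX0 : 0 < X := by linarith
  have hN0 : 0 ≤ N := le_trans (by positivity) n1
  have h7 : 64 * (X * E + X ^ 2) ≤ N := by
    refine le_trans ?_ n1
    have e1 : (64 * X ^ 1) * E ≤ X ^ 2 * E := by
      have := xstep (c := 64) hX (by norm_num) 1
      gcongr
    have e2 : 64 * X ^ 2 ≤ A * X ^ 3 := by
      calc 64 * X ^ 2 ≤ X ^ 3 := xstep hX (by norm_num) 2
        _ ≤ A * X ^ 3 := by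
          have : 0 < X ^ 3 := by positivity
          nlinarith
    rw [pow_one] at e1
    linarith
  calc 16 * (A * (X * E + X ^ 2)) = (64 * (X * E + X ^ 2)) * (A / 4) := by ring
    _ ≤ N * K := by
      apply mul_le_mul h7 (by linarith) (by positivity) hN0

lemma r8 (hX : 1000000 ≤ X) (hR0 : 1 ≤ R) (hR : R ≤ X) (hN : 0 ≤ N) (hb : 0 ≤ b)
    (k2 : X ^ 16 * N ≤ b) : 50 * R * (R + 1) * N ≤ 2 * b := by
  have hX0 : 0 < X := by linarith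
  calc 50 * R * (R + 1) * N ≤ 50 * X * (X + X) * N := by gcongr; linarith
    _ = 100 * X ^ 2 * N := by ring
    _ ≤ X ^ 16 * N := by
      have := (xstep (c := 100) hX (by norm_num) 2).trans (xpow hX (show 3 ≤ 16 by norm_num))
      gcongr
    _ ≤ b := k2
    _ ≤ 2 * b := by linarith

lemma rexp (hX : 1000000 ≤ X) (hA : 1 ≤ A) (hR : R ≤ X) (hN : A * X ^ 3 ≤ N) {t : ℝ}
    (ht : 0 ≤ t) (hlg : 12 * t ≤ X) : (10 * A * R + 2 * A) * t ≤ N := by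
  have hX0 : 0 < X := by linarith
  refine le_trans ?_ hN
  have h1 : 10 * A * R + 2 * A ≤ 12 * (A * X) := by
    have e1 : A * R ≤ A * X := by gcongr
    have e2 : A * 1 ≤ A * X := by gcongr; linarith
    linarith
  calc (10 * A * R + 2 * A) * t ≤ (12 * (A * X)) * t := by gcongr
    _ = (A * X) * (12 * t) := by ring
    _ ≤ (A * X) * X := by gcongr
    _ = A * X ^ 2 := by ring
    _ ≤ A * X ^ 3 := by
      have := xpow hX (show 2 ≤ 3 by norm_num)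
      gcongr

/-- the count -/
lemma rcount (hX : 1000000 ≤ X) (hXA : X ^ M ≤ A) {m : ℕ} (hm : 2 ≤ m) (hM : 8 * m + 20 ≤ M)
    (hE : 0 ≤ E) (hN0 : 0 ≤ N) (n2 : N ≤ 2 * (A * X ^ 3) + X ^ 2 * E) (hB : X ^ M * E ≤ A ^ 2)
    (v f : ℕ → ℝ) (hv0 : ∀ i, 0 ≤ v i) (hf : ∀ i ∈ Finset.Ico 1 m, 0 ≤ f i)
    (hv : ∀ i ∈ Finset.Ico 1 m, X ^ M * (A * E) ≤ v i)
    (h : ∀ i ∈ Finset.Ico 1 m, v i ≤ X ^ 4 * N * f i ∨ A ≤ X ^ 4 * f i)
    (hprod : A ^ m * X ^ M ≤ ∏ i ∈ Finset.Ico 1 m, min (v i) (A ^ 2)) :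
    3 ≤ m ∧ 729 * N < ∏ i ∈ Finset.Ico 1 m, f i := by
  have hX0 : 0 < X := by linarith
  have hM36 : 36 ≤ M := by omega
  have hXM : 1 < X ^ M := one_lt_pow₀ (by linarith) (by omega)
  have hA : 1 ≤ A := hXM.le.trans hXA
  have hm3 : 3 ≤ m := by
    by_contra hcon
    have hm2 : m = 2 := by omega
    subst hm2
    rw [show Finset.Ico 1 2 = {1} from rfl, Finset.prod_singleton] at hprod
    have h1 : A ^ 2 * X ^ M ≤ A ^ 2 * 1 := by
      rw [mul_one]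
      exact hprod.trans (min_le_right _ _)
    have h2 : X ^ M ≤ 1 := le_of_mul_le_mul_left h1 (by positivity)
    linarith
  refine ⟨hm3, ?_⟩
  rcases le_total E (A * X) with h1 | h1
  · refine countA hX hA hm hM hN0 ?_ v f hv0 hf h hprod
    refine n2.trans ?_
    have h2 : X ^ 2 * E ≤ X ^ 2 * (A * X) := by gcongr
    have h3 : X ^ 2 * (A * X) = A * X ^ 3 := by ring
    linarith
  · have hEpos : 0 < E := lt_of_lt_of_le (by positivity) h1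
    refine countB hX hXA hM36 hm3 hEpos hN0 ?_ hB v f hf hv h
    refine n2.trans ?_
    have h2 : X ^ 2 * (A * X) ≤ X ^ 2 * E := by gcongr
    have h3 : X ^ 2 * (A * X) = A * X ^ 3 := by ring
    linarith

end reals

/-- the two maximal gaps -/
lemma gaps {a R m L1 : ℕ} {lam : Fin a → ℕ} (hlam : Antitone lam) (hm : 2 ≤ m) (hmR : m ≤ R)
    (hL1 : L1 = ex lam (m - 1)) (h7 : 2 * ex lam R ≤ L1) :
    ∃ R1 l G1 G : ℕ, m ≤ R1 ∧ R1 ≤ R ∧ 2 ≤ l ∧ l ≤ R1 ∧ G1 = ex lam (R1 - 1) - ex lam R1 ∧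
      G = ex lam (l - 1) - ex lam l ∧ G1 ≤ G ∧
      (∀ j, 2 ≤ j → j ≤ R → ex lam (j - 1) - ex lam j ≤ G) ∧
      (∀ j, R1 ≤ j → j ≤ R → ex lam (j - 1) - ex lam j ≤ G1) ∧ L1 ≤ 2 * R * G1 ∧
      ex lam 1 ≤ 2 * R * G := by
  have hanti : Antitone (ex lam) := fun i j hij => ex_anti hlam hij
  obtain ⟨R1, hmR1, hR1R, hmax1⟩ := exists_argmax (fun j => ex lam (j - 1) - ex lam j) hmR
  obtain ⟨l, h2l, hlR1, hmax⟩ := exists_argmax (fun j => ex lam (j - 1) - ex lam j)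
    (show 2 ≤ R1 by omega)
  obtain ⟨G1, hG1⟩ : ∃ G, G = ex lam (R1 - 1) - ex lam R1 := ⟨_, rfl⟩
  obtain ⟨G, hG⟩ : ∃ G, G = ex lam (l - 1) - ex lam l := ⟨_, rfl⟩
  rw [← hG1] at hmax1
  rw [← hG] at hmax
  have hGG : G1 ≤ G := by
    rw [hG1]
    exact hmax R1 (by omega) le_rfl
  have hmaxl : ∀ j, 2 ≤ j → j ≤ R → ex lam (j - 1) - ex lam j ≤ G := by
    intro j h1 h2
    rcases le_total j R1 with h3 | h3
    · exact hmax j h1 h3
    · exact (hmax1 j (by omega) h2).trans hGG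
  have hL11 : L1 ≤ ex lam 1 := by
    rw [hL1]
    exact hanti (by omega)
  refine ⟨R1, l, G1, G, hmR1, hR1R, h2l, hlR1, hG1, hG, hGG, hmaxl,
    fun j h1 h2 => hmax1 j (by omega) h2, ?_, ?_⟩
  · rw [hL1]
    refine gap_ge (μ := ex lam) (p := m) (q := R) (by omega) (by omega) (by omega) ?_ ?_
    · exact fun j h1 h2 => hmax1 j h1 h2
    · rw [← hL1]; exact h7
  · refine gap_ge (μ := ex lam) (p := 2) (q := R) (by omega) (by omega) (by omega) hmaxl ?_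
    show 2 * ex lam R ≤ ex lam (2 - 1)
    exact h7.trans hL11

/-- the degree `k0` -/
lemma exists_k0 {a R N G : ℕ} (hN : 0 < N) (hR : 1 ≤ R) (h3a : 2000 * R ^ 3 * (40 * N) ≤ G)
    (h3b : 2000 * R ^ 3 * 2 ≤ a) (h80 : 80 * (R * N) ≤ G) :
    ∃ k0, 2000 * R ^ 3 ≤ k0 ∧ 1 ≤ k0 ∧ 2 * k0 ≤ a ∧ (G < 40 * N * (k0 + 1) ∨ a < 2 * (k0 + 1)) ∧
      20 * N * (k0 + 2 * R) ≤ G := by
  obtain ⟨k0, hk0⟩ : ∃ k0, k0 = min (G / (40 * N)) (a / 2) := ⟨_, rfl⟩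
  have h3 : 2000 * R ^ 3 ≤ k0 := by
    rw [hk0]
    apply le_min
    · rw [Nat.le_div_iff_mul_le (by positivity)]
      exact h3a
    · rw [Nat.le_div_iff_mul_le (by norm_num)]
      exact h3b
  have hk01 : 1 ≤ k0 := by
    refine le_trans ?_ h3
    have : 1 ≤ R ^ 3 := Nat.one_le_pow _ _ hR
    omega
  have hk0G : k0 * (40 * N) ≤ G := by
    have h1 : k0 ≤ G / (40 * N) := by rw [hk0]; exact min_le_left _ _
    exact (Nat.mul_le_mul_right _ h1).trans (Nat.div_mul_le_self _ _)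
  have hk0a : 2 * k0 ≤ a := by
    have h1 : k0 ≤ a / 2 := by rw [hk0]; exact min_le_right _ _
    omega
  have hk' : G < 40 * N * (k0 + 1) ∨ a < 2 * (k0 + 1) := by
    rcases le_total (G / (40 * N)) (a / 2) with h1 | h1
    · left
      rw [hk0, min_eq_left h1]
      exact Nat.lt_mul_div_succ G (by positivity)
    · right
      rw [hk0, min_eq_right h1]
      omega
  refine ⟨k0, h3, hk01, hk0a, hk', ?_⟩
  have h6 : 40 * (N * k0) ≤ G := by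
    calc 40 * (N * k0) = k0 * (40 * N) := by ring
      _ ≤ G := hk0G
  have h7 : 20 * N * (k0 + 2 * R) = 20 * (N * k0) + 40 * (R * N) := by ring
  rw [h7]
  omega

/-- the count for the partition -/
lemma count_nat {a b R m M N k0 G L1 : ℕ} {lam : Fin a → ℕ} {X E : ℝ} (hm : 2 ≤ m)
    (hM : 8 * m + 20 ≤ M) (hX : 1000000 ≤ X) (hXA : X ^ M ≤ a) (hb2 : b ≤ a ^ 2)
    (hlam : Antitone lam) (hR1 : 1 ≤ R) (hRX : (R : ℝ) ≤ X) (hE : 0 ≤ E)
    (hD' : X ^ M * (a * E) ≤ L1) (hEB : X ^ M * E ≤ b) (hL1 : L1 = ex lam (m - 1)) (hN : 0 < N)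
    (n2 : (N : ℝ) ≤ 2 * ((a : ℝ) * X ^ 3) + X ^ 2 * E) (hk01 : 1 ≤ k0)
    (hk' : G < 40 * N * (k0 + 1) ∨ a < 2 * (k0 + 1)) (g2 : ex lam 1 ≤ 2 * R * G)
    (hprod : (a : ℝ) ^ m * X ^ M ≤ ∏ i ∈ Finset.Ico 1 m, min (ex lam i : ℝ) ((a : ℝ) ^ 2)) :
    3 ≤ m ∧ 729 * N < ∏ i ∈ Finset.Ico 1 m,
      (min (ex lam i / (32 * R ^ 2 * N)) (k0 / (256 * R ^ 2)) + 1) := by
  have hX0 : (0 : ℝ) < X := by linarith
  have hanti : Antitone (ex lam) := fun i j hij => ex_anti hlam hij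
  have hR0' : (0 : ℝ) ≤ R := Nat.cast_nonneg _
  obtain ⟨f, hf⟩ : ∃ f : ℕ → ℕ, ∀ i, f i =
    min (ex lam i / (32 * R ^ 2 * N)) (k0 / (256 * R ^ 2)) + 1 := ⟨_, fun _ => rfl⟩
  have hfac : ∀ i ∈ Finset.Ico 1 m, (ex lam i : ℝ) ≤ X ^ 4 * N * f i ∨
      (a : ℝ) ≤ X ^ 4 * f i := by
    intro i hi
    rw [Finset.mem_Ico] at hi
    have h1 := factor_nat (v := ex lam i) hN hR1 hk01 hk' g2 (hanti (show 1 ≤ i by omega))
    rw [← hf i] at h1
    rcases h1 with h1 | h1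
    · left
      have h2 : (ex lam i : ℝ) ≤ 40960 * R ^ 3 * N * f i := by exact_mod_cast h1
      refine h2.trans ?_
      have h3 := xstep (c := 40960) hX (by norm_num) 3
      have h4 : (40960 : ℝ) * R ^ 3 ≤ X ^ 4 := by
        calc (40960 : ℝ) * R ^ 3 ≤ 40960 * X ^ 3 := by gcongr
          _ ≤ _ := h3
      gcongr
    · right
      have h2 : (a : ℝ) ≤ 1024 * R ^ 2 * f i := by exact_mod_cast h1
      refine h2.trans ?_
      have h3 := (xstep (c := 1024) hX (by norm_num) 2).trans (xpow hX (show 3 ≤ 4 by norm_num))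
      have h4 : (1024 : ℝ) * R ^ 2 ≤ X ^ 4 := by
        calc (1024 : ℝ) * R ^ 2 ≤ 1024 * X ^ 2 := by gcongr
          _ ≤ _ := h3
      gcongr
  have h1 := rcount hX hXA hm hM hE (Nat.cast_nonneg N) n2
    (hEB.trans (by exact_mod_cast hb2)) (fun i => (ex lam i : ℝ)) (fun i => (f i : ℝ))
    (fun i => Nat.cast_nonneg _) (fun i _ => Nat.cast_nonneg _) (fun i hi => by
      rw [Finset.mem_Ico] at hi
      refine hD'.trans ?_
      have h2 : L1 ≤ ex lam i := by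
        rw [hL1]
        exact hanti (by omega)
      exact_mod_cast h2) hfac hprod
  refine ⟨h1.1, ?_⟩
  have h2 : 729 * N < ∏ i ∈ Finset.Ico 1 m, f i := by exact_mod_cast h1.2
  rw [Finset.prod_congr rfl (fun i _ => hf i)] at h2
  exact h2

/-- the number of letters -/
lemma exists_N {A X E : ℝ} (hX : 1000000 ≤ X) (hA : 2 ≤ A) (hE0 : 0 ≤ E) :
    ∃ N : ℕ, A * X ^ 3 + X ^ 2 * E ≤ N ∧ (N : ℝ) ≤ 2 * (A * X ^ 3) + X ^ 2 * E := by
  have hX0 : 0 < X := by linarith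
  refine ⟨⌈A * X ^ 3⌉₊ + ⌈X ^ 2 * E⌉₊, ?_, ?_⟩
  · push_cast
    exact add_le_add (Nat.le_ceil _) (Nat.le_ceil _)
  · push_cast
    have h1 := (Nat.ceil_lt_add_one (show 0 ≤ A * X ^ 3 by positivity)).le
    have h2 := (Nat.ceil_lt_add_one (show 0 ≤ X ^ 2 * E by positivity)).le
    have h3 : 2 ≤ A * X ^ 3 := by
      have h4 : 1 ≤ X ^ 3 := one_le_pow₀ (by linarith)
      nlinarith
    linarith

lemma nat_gap {R N G1 : ℕ} {X : ℝ} (hX : 1000000 ≤ X) (hR1 : 1 ≤ R) (hRX : (R : ℝ) ≤ X)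
    (k3 : X ^ 14 * (N : ℝ) ≤ (G1 : ℝ)) :
    100 * R ^ 2 * N ≤ G1 ∧ 2000 * R ^ 3 * (40 * N) ≤ G1 ∧ 80 * (R * N) ≤ G1 := by
  have hX0 : (0 : ℝ) < X := by linarith
  have hN : (0 : ℝ) ≤ N := Nat.cast_nonneg _
  have h1n : 100 * R ^ 2 * N ≤ G1 := by
    have h1 : (100 : ℝ) * R ^ 2 * N ≤ G1 := by
      refine le_trans ?_ (r4 (c := 100) (i := 2) hX hN k3 (by norm_num) (by norm_num))
      gcongr
    exact_mod_cast h1
  refine ⟨h1n, ?_, ?_⟩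
  · have h1 : (2000 : ℝ) * R ^ 3 * (40 * N) ≤ G1 := by
      calc (2000 : ℝ) * R ^ 3 * (40 * N) = 80000 * R ^ 3 * N := by ring
        _ ≤ 80000 * X ^ 3 * N := by gcongr
        _ ≤ G1 := r4 hX hN k3 (by norm_num) (by norm_num)
    exact_mod_cast h1
  · have h1 : R ≤ R ^ 2 := by nlinarith
    have h4 : R * N ≤ R ^ 2 * N := Nat.mul_le_mul_right _ h1
    have h5 : 100 * (R ^ 2 * N) ≤ G1 := by
      rw [← mul_assoc]; exact h1n
    omega

lemma nat_a {R N a : ℕ} {X : ℝ} (hX : 1000000 ≤ X) (hR1 : 1 ≤ R) (hRX : (R : ℝ) ≤ X)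
    (hXA36 : X ^ 36 ≤ a) (hNa : (a : ℝ) * X ^ 3 ≤ N) :
    2000 * R ^ 3 * 2 ≤ a ∧ a * (R + 1) ≤ N ∧ R < a := by
  have hX0 : (0 : ℝ) < X := by linarith
  have hR1' : (1 : ℝ) ≤ R := by exact_mod_cast hR1
  refine ⟨?_, ?_, ?_⟩
  · have h1 : (2000 : ℝ) * R ^ 3 * 2 ≤ a := by
      calc (2000 : ℝ) * R ^ 3 * 2 = 4000 * R ^ 3 := by ring
        _ ≤ 4000 * X ^ 3 := by gcongr
        _ ≤ X ^ 4 := xstep hX (by norm_num) 3
        _ ≤ X ^ 36 := xpow hX (by norm_num)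
        _ ≤ a := hXA36
    exact_mod_cast h1
  · have h1 : (a : ℝ) * (R + 1) ≤ N := by
      refine le_trans ?_ hNa
      have h2 : (R : ℝ) + 1 ≤ X ^ 3 := by
        calc (R : ℝ) + 1 ≤ 2 * X ^ 1 := by rw [pow_one]; linarith
          _ ≤ X ^ 2 := xstep hX (by norm_num) 1
          _ ≤ X ^ 3 := xpow hX (by norm_num)
      gcongr
    exact_mod_cast h1
  · have h2 : X ^ 1 < X ^ 36 := pow_lt_pow_right₀ (by linarith) (by norm_num)
    rw [pow_one] at h2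
    have h3 : (R : ℝ) < a := by linarith
    exact_mod_cast h3

lemma nat_6 {a R N k0 G G1 L1 D U M : ℕ} {X E : ℝ} (hX : 1000000 ≤ X) (hM : 36 ≤ M) (ha : 1 ≤ a)
    (hE : 0 ≤ E) (hDE : (D : ℝ) = a * E) (hRX : (R : ℝ) ≤ X) (hU : (U : ℝ) ≤ a * E)
    (hD : X ^ M * (a * E) ≤ L1) (hl : (a : ℝ) * X ^ M ≤ L1) (g1 : (L1 : ℝ) ≤ 2 * X * G1)
    (hG : G1 ≤ G) (n1 : (a : ℝ) * X ^ 3 + X ^ 2 * E ≤ N) (hk01 : 1 ≤ k0)
    (hk' : G < 40 * N * (k0 + 1) ∨ a < 2 * (k0 + 1)) :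
    8 * (R * U + 2 * a * R ^ 2 + D) ≤ N * k0 := by
  have haone : (1 : ℝ) ≤ a := by exact_mod_cast ha
  have h2 : (16 : ℝ) * (a * (X * E + X ^ 2)) ≤ N * k0 := by
    have hk0' : (1 : ℝ) ≤ k0 := by exact_mod_cast hk01
    have hk1' : (1 : ℝ) ≤ k0 := by exact_mod_cast hk01
    rcases hk' with h4 | h4
    · refine r6b hX hM haone hE hD hl g1 (G := (G : ℝ)) (by exact_mod_cast hG) ?_
      have h6 : (G : ℝ) < 40 * N * (k0 + 1) := by exact_mod_cast h4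
      have h7 : (N : ℝ) * 1 ≤ N * k0 := by gcongr
      linarith
    · refine r6c hX haone hE n1 ?_
      have h6 : (a : ℝ) < 2 * (k0 + 1) := by exact_mod_cast h4
      linarith
  have h1 := r6a hX haone hE (Nat.cast_nonneg R) hRX (U := (U : ℝ)) (Nat.cast_nonneg _) hU
  rw [← hDE] at h1
  have h3 : (8 : ℝ) * (R * U + 2 * a * R ^ 2 + D) ≤ N * k0 := h1.trans h2
  exact_mod_cast h3

/-- both finite statements together -/
lemma both (hC : CaseCNat) (hR : CaseRNat) {a b R R1 l m k0 N G G1 L1 : ℕ} {lam : Fin a → ℕ}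
    (ha : 1 ≤ a) (hb2 : b ≤ a ^ 2)
    (hlam : Antitone lam) (hsum : ∑ i, lam i = a * b) (hm3 : 3 ≤ m) (hmR1 : m ≤ R1)
    (hR1R : R1 ≤ R) (hRa : R < a) (h2l : 2 ≤ l) (hlR1 : l ≤ R1)
    (hG1 : G1 = ex lam (R1 - 1) - ex lam R1) (hG : G = ex lam (l - 1) - ex lam l)
    (hmaxl : ∀ j, 2 ≤ j → j ≤ R → ex lam (j - 1) - ex lam j ≤ G)
    (hmaxR1 : ∀ j, R1 ≤ j → j ≤ R → ex lam (j - 1) - ex lam j ≤ G1)
    (hL1 : L1 = ex lam (m - 1)) (h7' : 2 * ex lam R ≤ L1) (h1n : 100 * R ^ 2 * N ≤ G1)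
    (h3 : 2000 * R ^ 3 ≤ k0) (hk0a : 2 * k0 ≤ a) (h2n : 20 * N * (k0 + 2 * R) ≤ G)
    (h5n : a * (R + 1) ≤ N)
    (h6n : 8 * (R * ex lam R + 2 * a * R ^ 2 + ∑ i, low R lam i) ≤ N * k0)
    (h8n : 50 * R * (R + 1) * N ≤ 2 * b)
    (hcount : 729 * N < ∏ i ∈ Finset.Ico 1 m,
      (min (ex lam i / (32 * R ^ 2 * N)) (k0 / (256 * R ^ 2)) + 1))
    (hexp : ((a : ℝ) ^ 4 + 1) ^ (2 * a * R) * ((a : ℝ) + 1) ^ a ≤ Real.exp N) :
    plethMult a b a lam ≤ plethMult b a a lam := by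
  have htop : ((a : ℝ) ^ 3 + 1) ^ (2 * a * R) * ((a : ℝ) + 1) ^ a ≤ Real.exp N := by
    refine le_trans ?_ hexp
    have ha1 : (1 : ℝ) ≤ a := by exact_mod_cast (by omega : 1 ≤ a)
    have h1 : (a : ℝ) ^ 3 ≤ (a : ℝ) ^ 4 := pow_le_pow_right₀ ha1 (by norm_num)
    gcongr
  rcases Nat.lt_or_ge l R1 with hlt | hge
  · refine hC a b R R1 l m k0 N lam hb2 hlam hsum h2l hlt hmR1 hR1R hRa ?_ ?_ ?_ ?_ h3 hk0a
      h5n h6n ?_ h8n hcount htop
    · rw [← hG]; exact hmaxl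
    · rw [← hG1]; exact hmaxR1
    · rw [← hG1]; exact h1n
    · rw [← hG]; exact h2n
    · rw [← hL1]; exact h7'
  · have hlR : l = R1 := le_antisymm hlR1 hge
    refine hR a b R R1 m k0 N lam hb2 hlam hsum hm3 hmR1 hR1R hRa ?_ h3 hk0a h5n h6n h8n hcount
      htop
    rw [← hlR, ← hG]; exact h2n

/-- `TypeStmt` with `X = a ^ δ`. -/
theorem type_real (hC : CaseCNat) (hR : CaseRNat) {a b R m M : ℕ} {lam : Fin a → ℕ} {X : ℝ}
    (ha : 23 ≤ a) (hm : 2 ≤ m) (hM : 8 * m + 20 ≤ M) (hX : 1000000 ≤ X) (hXA : X ^ M ≤ a)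
    (hlg : 12 * Real.log a ≤ X) (hb2 : b ≤ a ^ 2) (hb : (a : ℝ) * X ^ M ≤ b)
    (hlam : Antitone lam) (hsum : ∑ i, lam i = a * b) (hmR : m ≤ R) (hRX : (R : ℝ) ≤ X)
    (hD : X ^ M * (below R lam : ℝ) ≤ ex lam (m - 1)) (hl : (a : ℝ) * X ^ M ≤ ex lam (m - 1))
    (hprod : (a : ℝ) ^ m * X ^ M ≤ ∏ i ∈ Finset.Ico 1 m, min (ex lam i : ℝ) ((a : ℝ) ^ 2)) :
    plethMult a b a lam ≤ plethMult b a a lam := by
  have hX0 : (0 : ℝ) < X := by linarith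
  have ha1 : (23 : ℝ) ≤ a := by exact_mod_cast ha
  have ha0 : (0 : ℝ) < a := by linarith
  have haone : (1 : ℝ) ≤ a := by linarith
  have hM36 : 36 ≤ M := by omega
  have hXA36 : X ^ 36 ≤ a := (xpow hX hM36).trans hXA
  have hR1 : 1 ≤ R := by omega
  have hR1' : (1 : ℝ) ≤ R := by exact_mod_cast hR1
  obtain ⟨D, hDdef⟩ : ∃ D, D = below R lam := ⟨_, rfl⟩
  rw [← hDdef] at hD
  obtain ⟨E, hE⟩ : ∃ E : ℝ, E = D / a := ⟨_, rfl⟩
  have hE0 : 0 ≤ E := by rw [hE]; positivity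
  have hDE : (D : ℝ) = a * E := by rw [hE]; field_simp
  obtain ⟨L1, hL1⟩ : ∃ L1, L1 = ex lam (m - 1) := ⟨_, rfl⟩
  rw [← hL1] at hD hl
  have hD' : X ^ M * (a * E) ≤ L1 := by rw [← hDE]; exact hD
  have hL1ab : L1 ≤ a * b := by
    rw [hL1, ← hsum]
    exact ex_le_sum lam _
  have hEB : X ^ M * E ≤ b := by
    have h1 : (L1 : ℝ) ≤ a * b := by exact_mod_cast hL1ab
    have h2 : a * (X ^ M * E) ≤ a * b := by
      calc a * (X ^ M * E) = X ^ M * (a * E) := by ring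
        _ ≤ L1 := hD'
        _ ≤ a * b := h1
    exact le_of_mul_le_mul_left h2 ha0
  have hEL : X ^ M * E ≤ L1 := by
    refine le_trans ?_ hD'
    have : E ≤ a * E := le_mul_of_one_le_left hE0 haone
    gcongr
  obtain ⟨N, n1, n2⟩ := exists_N (A := (a : ℝ)) hX (by linarith) hE0
  have hNa : (a : ℝ) * X ^ 3 ≤ N := by
    have : 0 ≤ X ^ 2 * E := by positivity
    linarith
  have hNpos' : (0 : ℝ) < N := lt_of_lt_of_le (by positivity) hNa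
  have hNpos : 0 < N := by exact_mod_cast hNpos'
  have k1 : X ^ 16 * N ≤ L1 := n_le hX hM36 haone hE0 n2 hl hEL
  have k2 : X ^ 16 * N ≤ b := n_le hX hM36 haone hE0 n2 hb hEB
  obtain ⟨h3b, h5n, hRa⟩ := nat_a hX hR1 hRX hXA36 hNa
  have hexR : ex lam R ≤ D := by
    rw [hDdef]
    unfold below
    exact Finset.single_le_sum (f := fun i => ex lam i) (fun i _ => Nat.zero_le _)
      (Finset.mem_Ico.2 ⟨le_rfl, hRa⟩)
  have hexR' : (ex lam R : ℝ) ≤ a * E := by rw [← hDE]; exact_mod_cast hexR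
  have h7' : 2 * ex lam R ≤ L1 := by
    have h1 : (2 : ℝ) * ex lam R ≤ L1 := by
      have h2 : (2 : ℝ) ≤ X ^ M := by
        have h3 : X ^ 1 ≤ X ^ M := xpow hX (by omega)
        rw [pow_one] at h3
        linarith
      calc (2 : ℝ) * ex lam R ≤ X ^ M * (a * E) := by gcongr
        _ ≤ L1 := hD'
    exact_mod_cast h1
  obtain ⟨R1, l, G1, G, hmR1, hR1R, h2l, hlR1, hG1, hG, hGG, hmaxl, hmaxR1, g1, g2⟩ :=
    gaps hlam hm hmR hL1 h7'
  have g1' : (L1 : ℝ) ≤ 2 * X * G1 := by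
    have h1 : (L1 : ℝ) ≤ 2 * R * G1 := by exact_mod_cast g1
    refine h1.trans ?_
    gcongr
  obtain ⟨h1n, h3a, h80⟩ := nat_gap hX hR1 hRX (r3 hX k1 (Nat.cast_nonneg _) g1')
  obtain ⟨k0, h3, hk01, hk0a, hk', h2n⟩ := exists_k0 hNpos hR1 (h3a.trans hGG) h3b
    (h80.trans hGG)
  have h6n := nat_6 hX hM36 (by omega) hE0 hDE hRX hexR' hD' hl g1' hGG n1 hk01 hk'
  have hlow : ∑ i, low R lam i = D := by rw [hDdef, below_eq hRa.le lam]
  rw [← hlow] at h6n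
  have h8n : 50 * R * (R + 1) * N ≤ 2 * b := by
    have h1 := r8 hX hR1' hRX hNpos'.le (Nat.cast_nonneg b) k2
    exact_mod_cast h1
  obtain ⟨hm3, hcount⟩ := count_nat (G := G) (k0 := k0) hm hM hX hXA hb2 hlam hR1 hRX hE0 hD' hEB
    hL1 hNpos n2 hk01 hk' g2 hprod
  have hexp : ((a : ℝ) ^ 4 + 1) ^ (2 * a * R) * ((a : ℝ) + 1) ^ a ≤ Real.exp N :=
    top4_le (by omega) (rexp hX haone hRX hNa (Real.log_nonneg haone) hlg)
  exact both hC hR (by omega) hb2 hlam hsum hm3 hmR1 hR1R hRa h2l hlR1 hG1 hG hmaxl hmaxR1 hL1 h7' h1n h3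
    hk0a h2n h5n h6n h8n hcount hexp

/-- **(C) from the two finite statements.** -/
theorem typeStmt_of (hC : CaseCNat) (hR' : CaseRNat) : T9.TypeStmt := by
  intro m ε hm hε
  obtain ⟨M, hM⟩ : ∃ M : ℕ, M = 8 * m + 20 := ⟨_, rfl⟩
  have hM0 : (0 : ℝ) < M := by
    have : 0 < M := by omega
    exact_mod_cast this
  set η : ℝ := min ε 1 with hη
  have hη0 : 0 < η := lt_min hε one_pos
  have hη1 : η ≤ 1 := min_le_right _ _
  have hηε : η ≤ ε := min_le_left _ _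
  refine ⟨η / M, by positivity, ?_⟩
  have hδ : 0 < η / M := by positivity
  have hlim : ∀ᶠ a : ℕ in Filter.atTop, (1000000 : ℝ) ≤ (a : ℝ) ^ (η / M) := by
    have h1 : Filter.Tendsto (fun a : ℕ => (a : ℝ) ^ (η / M)) Filter.atTop Filter.atTop :=
      (tendsto_rpow_atTop hδ).comp tendsto_natCast_atTop_atTop
    exact h1.eventually_ge_atTop _
  have hlog : ∀ᶠ a : ℕ in Filter.atTop, 12 * Real.log a ≤ (a : ℝ) ^ (η / M) := by
    have h1 := (isLittleO_log_rpow_atTop hδ).bound (show (0 : ℝ) < 1 / 12 by norm_num)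
    have h2 := tendsto_natCast_atTop_atTop (R := ℝ) |>.eventually h1
    filter_upwards [h2, Filter.eventually_ge_atTop 1] with a h3 ha
    have ha1 : (1 : ℝ) ≤ a := by exact_mod_cast ha
    rw [Real.norm_of_nonneg (Real.log_nonneg ha1), Real.norm_of_nonneg (by positivity)] at h3
    linarith
  filter_upwards [hlim, hlog, Filter.eventually_ge_atTop 23] with a hX hlg ha b R lam hb2 hb hlam
    hsum hmR hR hD hl hprod
  have ha2 : (23 : ℝ) ≤ a := by exact_mod_cast ha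
  have ha0 : (0 : ℝ) < a := by linarith
  have ha1 : (1 : ℝ) ≤ a := by linarith
  have hXM : ((a : ℝ) ^ (η / M)) ^ M = (a : ℝ) ^ η := by
    rw [← Real.rpow_natCast, ← Real.rpow_mul ha0.le]
    congr 1
    field_simp
  have hle : (a : ℝ) ^ η ≤ (a : ℝ) ^ ε := Real.rpow_le_rpow_of_exponent_le ha1 hηε
  have h1 : (a : ℝ) ^ (1 + ε) = a * (a : ℝ) ^ ε := by
    rw [Real.rpow_add ha0, Real.rpow_one]
  have h2 : (a : ℝ) ^ ((m : ℝ) + ε) = (a : ℝ) ^ m * (a : ℝ) ^ ε := by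
    rw [Real.rpow_add ha0, Real.rpow_natCast]
  rw [h1] at hb hl
  rw [h2] at hprod
  refine type_real hC hR' ha hm hM.ge hX ?_ hlg hb2 ?_ hlam hsum hmR hR ?_ ?_ ?_
  · rw [hXM]
    calc (a : ℝ) ^ η ≤ (a : ℝ) ^ (1 : ℝ) := Real.rpow_le_rpow_of_exponent_le ha1 hη1
      _ = a := Real.rpow_one _
  · rw [hXM]
    refine le_trans ?_ hb
    gcongr
  · rw [hXM]
    refine le_trans ?_ hD
    gcongr
  · rw [hXM]
    refine le_trans ?_ hl
    gcongr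
  · rw [hXM]
    refine le_trans ?_ hprod
    gcongr

end Vale.Agent.P181.H503
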