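import Vale.Agent.P181.T9.Spec

set_option autoImplicit false

/-!
# P181, (C): the numbers of `TypeStmt`
-/

namespace Vale.Agent.P181.H503

open Vale.Agent.P181.T4 Vale.Agent.P181.T7 Vale.Agent.P181.H280 Vale.Agent.P181.H463

/-- literal of helper699 (`caseC_nat`) -/
def CaseCNat : Prop := ∀ (a b R0 R1 l m k0 N : ℕ) (lam : Fin a → ℕ), b ≤ a ^ 2 → Antitone lam →
  ∑ i, lam i = a * b → 2 ≤ l → l < R1 → m ≤ R1 → R1 ≤ R0 → R0 < a →
  (∀ j, 2 ≤ j → j ≤ R0 → ex lam (j - 1) - ex lam j ≤ ex lam (l - 1) - ex lam l) →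
  (∀ j, R1 ≤ j → j ≤ R0 → ex lam (j - 1) - ex lam j ≤ ex lam (R1 - 1) - ex lam R1) →
  100 * R0 ^ 2 * N ≤ ex lam (R1 - 1) - ex lam R1 →
  20 * N * (k0 + 2 * R0) ≤ ex lam (l - 1) - ex lam l →
  2000 * R0 ^ 3 ≤ k0 → 2 * k0 ≤ a → a * (R0 + 1) ≤ N →
  8 * (R0 * ex lam R0 + 2 * a * R0 ^ 2 + ∑ i, low R0 lam i) ≤ N * k0 →
  2 * ex lam R0 ≤ ex lam (m - 1) → 50 * R0 * (R0 + 1) * N ≤ 2 * b →
  729 * N < ∏ i ∈ Finset.Ico 1 m,
    (min (ex lam i / (32 * R0 ^ 2 * N)) (k0 / (256 * R0 ^ 2)) + 1) →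
  ((a : ℝ) ^ 3 + 1) ^ (2 * a * R0) * ((a : ℝ) + 1) ^ a ≤ Real.exp N →
  plethMult a b a lam ≤ plethMult b a a lam

/-- literal of the one-level case -/
def CaseRNat : Prop := ∀ (a b R0 R1 m k0 N : ℕ) (lam : Fin a → ℕ), b ≤ a ^ 2 → Antitone lam →
  ∑ i, lam i = a * b → 3 ≤ m → m ≤ R1 → R1 ≤ R0 → R0 < a →
  20 * N * (k0 + 2 * R0) ≤ ex lam (R1 - 1) - ex lam R1 →
  2000 * R0 ^ 3 ≤ k0 → 2 * k0 ≤ a → a * (R0 + 1) ≤ N →
  8 * (R0 * ex lam R0 + 2 * a * R0 ^ 2 + ∑ i, low R0 lam i) ≤ N * k0 →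
  50 * R0 * (R0 + 1) * N ≤ 2 * b →
  729 * N < ∏ i ∈ Finset.Ico 1 m,
    (min (ex lam i / (32 * R0 ^ 2 * N)) (k0 / (256 * R0 ^ 2)) + 1) →
  ((a : ℝ) ^ 3 + 1) ^ (2 * a * R0) * ((a : ℝ) + 1) ^ a ≤ Real.exp N →
  plethMult a b a lam ≤ plethMult b a a lam

/-- an index with the largest value -/
lemma exists_argmax (f : ℕ → ℕ) {p q : ℕ} (h : p ≤ q) :
    ∃ r, p ≤ r ∧ r ≤ q ∧ ∀ j, p ≤ j → j ≤ q → f j ≤ f r := by
  obtain ⟨r, hr, hr2⟩ := Finset.exists_max_image (Finset.Icc p q) f ⟨p, Finset.mem_Icc.2 ⟨le_rfl, h⟩⟩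
  rw [Finset.mem_Icc] at hr
  exact ⟨r, hr.1, hr.2, fun j h1 h2 => hr2 j (Finset.mem_Icc.2 ⟨h1, h2⟩)⟩

/-- telescoping -/
lemma tele (μ : ℕ → ℕ) {p G : ℕ} (hp : 1 ≤ p) (n : ℕ)
    (h : ∀ j, p ≤ j → j < p + n → μ (j - 1) - μ j ≤ G) :
    μ (p - 1) ≤ μ (p + n - 1) + n * G := by
  induction n with
  | zero => simp
  | succ n ih =>
    have h1 := ih (fun j hj1 hj2 => h j hj1 (by omega))
    have h2 := h (p + n) (by omega) (by omega)
    have h3 : p + (n + 1) - 1 = p + n := by omega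
    rw [h3, add_mul, one_mul]
    omega

/-- the largest gap -/
lemma gap_ge {μ : ℕ → ℕ} {p q G R : ℕ} (hp : 1 ≤ p) (hpq : p ≤ q + 1)
    (hqR : q + 1 - p ≤ R) (hG : ∀ j, p ≤ j → j ≤ q → μ (j - 1) - μ j ≤ G)
    (h2 : 2 * μ q ≤ μ (p - 1)) : μ (p - 1) ≤ 2 * R * G := by
  have h := tele μ hp (q + 1 - p) (G := G) (fun j h1 h3 => hG j h1 (by omega))
  have h3 : p + (q + 1 - p) - 1 = q := by omega
  rw [h3] at h
  have h4 : (q + 1 - p) * G ≤ R * G := Nat.mul_le_mul_right _ hqR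
  nlinarith

/-- one factor of the count -/
lemma factor_nat {a N R k G lam1 v : ℕ} (hN : 0 < N) (hR : 0 < R) (hk : 1 ≤ k)
    (hk' : G < 40 * N * (k + 1) ∨ a < 2 * (k + 1)) (h1 : lam1 ≤ 2 * R * G) (hv : v ≤ lam1) :
    v ≤ 40960 * R ^ 3 * N * (min (v / (32 * R ^ 2 * N)) (k / (256 * R ^ 2)) + 1) ∨
      a ≤ 1024 * R ^ 2 * (min (v / (32 * R ^ 2 * N)) (k / (256 * R ^ 2)) + 1) := by
  rcases le_total (v / (32 * R ^ 2 * N)) (k / (256 * R ^ 2)) with h | h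
  · left
    rw [min_eq_left h]
    have h2 : 0 < 32 * R ^ 2 * N := by positivity
    have h3 : v < 32 * R ^ 2 * N * (v / (32 * R ^ 2 * N) + 1) := Nat.lt_mul_div_succ v h2
    refine h3.le.trans (Nat.mul_le_mul_right _ (Nat.mul_le_mul_right _ ?_))
    have h4 : R ^ 2 ≤ R ^ 3 := Nat.pow_le_pow_right hR (by norm_num)
    nlinarith
  · rw [min_eq_right h]
    have h2 : 0 < 256 * R ^ 2 := by positivity
    have h3 : k < 256 * R ^ 2 * (k / (256 * R ^ 2) + 1) := Nat.lt_mul_div_succ k h2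
    obtain ⟨f, hf⟩ : ∃ f, f = k / (256 * R ^ 2) + 1 := ⟨_, rfl⟩
    rw [← hf] at h3 ⊢
    rcases hk' with h4 | h4
    · left
      have h5 : G ≤ 80 * N * k := by
        have : 40 * N * (k + 1) ≤ 80 * N * k := by nlinarith
        omega
      calc v ≤ 2 * R * G := hv.trans h1
        _ ≤ 2 * R * (80 * N * k) := Nat.mul_le_mul_left _ h5
        _ = (160 * R * N) * k := by ring
        _ ≤ (160 * R * N) * (256 * R ^ 2 * f) := Nat.mul_le_mul_left _ h3.le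
        _ = _ := by ring
    · right
      calc a ≤ 4 * k := by omega
        _ ≤ 4 * (256 * R ^ 2 * f) := Nat.mul_le_mul_left _ h3.le
        _ = _ := by ring

section reals

variable {A X E B N R : ℝ} {M : ℕ}

lemma xpow {X : ℝ} (hX : 1000000 ≤ X) {i j : ℕ} (h : i ≤ j) : X ^ i ≤ X ^ j :=
  pow_le_pow_right₀ (by linarith) h

/-- `c * X ^ i ≤ X ^ (i + 1)` for `c ≤ 10 ^ 6` -/
lemma xstep {X c : ℝ} (hX : 1000000 ≤ X) (hc : c ≤ 1000000) (i : ℕ) :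
    c * X ^ i ≤ X ^ (i + 1) := by
  rw [pow_succ, mul_comm]
  have : 0 < X ^ i := by positivity
  have h2 : c ≤ X := by linarith
  gcongr

lemma n_le (hX : 1000000 ≤ X) (hM : 36 ≤ M) (hA : 1 ≤ A) (hE : 0 ≤ E)
    (n2 : N ≤ 2 * (A * X ^ 3) + X ^ 2 * E) {Z : ℝ} (h1 : A * X ^ M ≤ Z) (h2 : X ^ M * E ≤ Z) :
    X ^ 16 * N ≤ Z := by
  have hX0 : 0 < X := by linarith
  have e1 : X ^ 16 * N ≤ X ^ 16 * (2 * (A * X ^ 3) + X ^ 2 * E) := by gcongr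
  have e2 : X ^ 16 * (2 * (A * X ^ 3) + X ^ 2 * E) = A * (2 * X ^ 19) + X ^ 18 * E := by ring
  have e3 : 2 * (2 * X ^ 19) ≤ X ^ M := by
    calc 2 * (2 * X ^ 19) = 4 * X ^ 19 := by ring
      _ ≤ X ^ 20 := xstep hX (by norm_num) 19
      _ ≤ X ^ M := xpow hX (by omega)
  have e4 : 2 * X ^ 18 ≤ X ^ M := by
    calc 2 * X ^ 18 ≤ X ^ 19 := xstep hX (by norm_num) 18
      _ ≤ X ^ M := xpow hX (by omega)
  have e5 : A * (2 * (2 * X ^ 19)) ≤ A * X ^ M := by gcongr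
  have e6 : (2 * X ^ 18) * E ≤ X ^ M * E := by gcongr
  nlinarith

/-- the count, case `E ≤ A X` -/
lemma countA (hX : 1000000 ≤ X) (hA : 1 ≤ A) {m : ℕ} (hm : 2 ≤ m) (hM : 8 * m + 20 ≤ M)
    (hN0 : 0 ≤ N) (hN : N ≤ 3 * (A * X ^ 3)) (v f : ℕ → ℝ) (hv0 : ∀ i, 0 ≤ v i)
    (hf : ∀ i ∈ Finset.Ico 1 m, 0 ≤ f i)
    (h : ∀ i ∈ Finset.Ico 1 m, v i ≤ X ^ 4 * N * f i ∨ A ≤ X ^ 4 * f i)
    (hprod : A ^ m * X ^ M ≤ ∏ i ∈ Finset.Ico 1 m, min (v i) (A ^ 2)) :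
    729 * N < ∏ i ∈ Finset.Ico 1 m, f i := by
  have hX0 : 0 < X := by linarith
  have hA0 : 0 < A := by linarith
  have h1 : ∀ i ∈ Finset.Ico 1 m, min (v i) (A ^ 2) ≤ (A * X ^ 8) * f i := by
    intro i hi
    have hfi := hf i hi
    rcases h i hi with h2 | h2
    · refine (min_le_left _ _).trans (h2.trans ?_)
      apply mul_le_mul_of_nonneg_right _ hfi
      calc X ^ 4 * N ≤ X ^ 4 * (3 * (A * X ^ 3)) := by gcongr
        _ = A * (3 * X ^ 7) := by ring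
        _ ≤ A * X ^ 8 := by
          have := xstep (c := 3) hX (by norm_num) 7
          gcongr
    · refine (min_le_right _ _).trans ?_
      calc A ^ 2 = A * A := by ring
        _ ≤ A * (X ^ 4 * f i) := by gcongr
        _ ≤ A * (X ^ 8 * f i) := by
          have := xpow hX (show 4 ≤ 8 by norm_num)
          gcongr
        _ = _ := by ring
  have h2 : ∏ i ∈ Finset.Ico 1 m, min (v i) (A ^ 2) ≤ ∏ i ∈ Finset.Ico 1 m, (A * X ^ 8) * f i :=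
    Finset.prod_le_prod (fun i _ => le_min (hv0 i) (by positivity)) h1
  rw [Finset.prod_mul_distrib, Finset.prod_const, Nat.card_Ico] at h2
  obtain ⟨F, hF⟩ : ∃ F, F = ∏ i ∈ Finset.Ico 1 m, f i := ⟨_, rfl⟩
  rw [← hF] at h2 ⊢
  have h3 : A ^ m * X ^ M ≤ (A * X ^ 8) ^ (m - 1) * F := hprod.trans h2
  obtain ⟨n, rfl⟩ : ∃ n, m = n + 1 := ⟨m - 1, by omega⟩
  have h4 : A ^ (n + 1) * X ^ M ≥ A ^ (n + 1) * X ^ (8 * n + 28) := by
    have := xpow hX (show 8 * n + 28 ≤ M by omega)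
    gcongr
  have h5 : A ^ (n + 1) * X ^ (8 * n + 28) = (A * X ^ 8) ^ n * (A * X ^ 28) := by
    rw [mul_pow, pow_succ, pow_add, pow_mul]
    ring
  have h6 : (A * X ^ 8) ^ n * (A * X ^ 28) ≤ (A * X ^ 8) ^ n * F := by
    rw [← h5]
    rw [Nat.add_sub_cancel] at h3
    exact h4.le.trans h3
  have h7 : A * X ^ 28 ≤ F := le_of_mul_le_mul_left h6 (by positivity)
  have h8 : 729 * N ≤ 729 * (3 * (A * X ^ 3)) := by gcongr
  have h9 : 729 * (3 * (A * X ^ 3)) = A * (2187 * X ^ 3) := by ring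
  have h10 : A * (2187 * X ^ 3) ≤ A * X ^ 4 := by
    have := xstep (c := 2187) hX (by norm_num) 3
    gcongr
  have h11 : A * X ^ 4 < A * X ^ 28 := by
    have : X ^ 4 < X ^ 28 := pow_lt_pow_right₀ (by linarith) (by norm_num)
    gcongr
  linarith

/-- the count, case `A X ≤ E` -/
lemma countB (hX : 1000000 ≤ X) (hA : X ^ M ≤ A) (hM : 36 ≤ M) {m : ℕ} (hm : 3 ≤ m)
    (hE : 0 < E) (hN0 : 0 ≤ N) (hN : N ≤ 3 * (X ^ 2 * E)) (hB : X ^ M * E ≤ A ^ 2)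
    (v f : ℕ → ℝ) (hf : ∀ i ∈ Finset.Ico 1 m, 0 ≤ f i)
    (hv : ∀ i ∈ Finset.Ico 1 m, X ^ M * (A * E) ≤ v i)
    (h : ∀ i ∈ Finset.Ico 1 m, v i ≤ X ^ 4 * N * f i ∨ A ≤ X ^ 4 * f i) :
    729 * N < ∏ i ∈ Finset.Ico 1 m, f i := by
  have hX0 : 0 < X := by linarith
  have hA1 : X ^ 36 ≤ A := (xpow hX hM).trans hA
  have hA0 : 0 < A := lt_of_lt_of_le (by positivity) hA1
  have h1 : ∀ i ∈ Finset.Ico 1 m, A ≤ X ^ 4 * f i := by
    intro i hi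
    have hfi := hf i hi
    rcases h i hi with h2 | h2
    · have h3 : X ^ M * (A * E) ≤ (3 * X ^ 6 * f i) * E := by
        calc X ^ M * (A * E) ≤ v i := hv i hi
          _ ≤ X ^ 4 * N * f i := h2
          _ ≤ X ^ 4 * (3 * (X ^ 2 * E)) * f i := by gcongr
          _ = _ := by ring
      have h4 : X ^ M * A ≤ 3 * X ^ 6 * f i := by
        apply le_of_mul_le_mul_right _ hE
        calc X ^ M * A * E = X ^ M * (A * E) := by ring
          _ ≤ _ := h3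
      have h5 : X ^ 8 * A ≤ X ^ M * A := by
        have := xpow hX (show 8 ≤ M by omega)
        gcongr
      have h6 : 3 * X ^ 6 * f i ≤ X ^ 8 * f i := by
        have h7 := xstep (c := 3) hX (by norm_num) 6
        have h8 := xpow hX (show 7 ≤ 8 by norm_num)
        have h9 : 3 * X ^ 6 ≤ X ^ 8 := h7.trans h8
        gcongr
      have h7 : A ≤ f i := le_of_mul_le_mul_left (by linarith) (show 0 < X ^ 8 by positivity)
      have h8 : 1 * f i ≤ X ^ 4 * f i := by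
        have : 1 ≤ X ^ 4 := one_le_pow₀ (by linarith)
        gcongr
      linarith
    · exact h2
  have h2 : ∀ i ∈ Finset.Ico 1 m, A / X ^ 4 ≤ f i := by
    intro i hi
    rw [div_le_iff₀ (by positivity), mul_comm]
    exact h1 i hi
  have h3 : (A / X ^ 4) ^ (m - 1) ≤ ∏ i ∈ Finset.Ico 1 m, f i := by
    have h4 : ∏ _i ∈ Finset.Ico 1 m, (A / X ^ 4) ≤ ∏ i ∈ Finset.Ico 1 m, f i :=
      Finset.prod_le_prod (fun i _ => by positivity) h2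
    rwa [Finset.prod_const, Nat.card_Ico] at h4
  have h4 : 1 ≤ A / X ^ 4 := by
    rw [le_div_iff₀ (by positivity), one_mul]
    exact (xpow hX (show 4 ≤ 36 by norm_num)).trans hA1
  have h5 : (A / X ^ 4) ^ 2 ≤ (A / X ^ 4) ^ (m - 1) := pow_le_pow_right₀ h4 (by omega)
  refine lt_of_lt_of_le ?_ (h5.trans h3)
  rw [div_pow, lt_div_iff₀ (by positivity)]
  have h6 : 729 * N * (X ^ 4) ^ 2 ≤ 729 * (3 * (X ^ 2 * E)) * (X ^ 4) ^ 2 := by gcongr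
  have h7 : 729 * (3 * (X ^ 2 * E)) * (X ^ 4) ^ 2 = (2187 * X ^ 10) * E := by ring
  have h8 : (2187 * X ^ 10) * E < X ^ M * E := by
    apply mul_lt_mul_of_pos_right _ hE
    calc 2187 * X ^ 10 ≤ X ^ 11 := xstep hX (by norm_num) 10
      _ < X ^ 12 := pow_lt_pow_right₀ (by linarith) (by norm_num)
      _ ≤ X ^ M := xpow hX (by omega)
  linarith

end reals

end Vale.Agent.P181.H503
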