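import Vale.Agent.P181.H503.WLemmaI
import Vale.Agent.P181.R2.H572.NMix

/-!
# P181: the mixed row in weight-vector form
-/

set_option autoImplicit false

namespace Vale.Agent.P181.H503

open MvPolynomial Finset
open Vale.Agent.P181 Vale.Agent.P181.H536 Vale.Agent.P181.H240
open Vale.Agent.P181.R2.H572 Vale.Agent.P181.R2.H572.Mix

/-- Weights of the monomials from the scalings, with a factor `l ^ r`. -/
lemma weight_eq_of_scaling' {σ : Type*} [Fintype σ] (G : MvPolynomial σ ℂ) (w : σ → ℕ) (r t : ℕ)
    (h : ∀ (c : σ → ℂ) (l : ℂ), l ≠ 0 →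
      l ^ r * eval (fun i => l ^ w i * c i) G = l ^ t * eval c G)
    (m : σ →₀ ℕ) (hm : m ∈ G.support) : ∑ i, w i * m i + r = t := by
  classical
  by_contra hlt
  let Gn : MvPolynomial σ ℂ :=
    ∑ f ∈ G.support.filter (fun f => ∑ i, w i * f i = ∑ i, w i * m i), monomial f (coeff f G)
  have hGn : Gn = 0 := by
    apply MvPolynomial.funext
    intro c
    rw [map_zero]
    let g : Polynomial ℂ := ∑ f ∈ G.support,
      Polynomial.C (coeff f G * ∏ i, c i ^ f i) * Polynomial.X ^ (∑ i, w i * f i)
    have hg : g * Polynomial.X ^ r = Polynomial.C (eval c G) * Polynomial.X ^ t := by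
      apply Polynomial.eq_of_infinite_eval_eq
      apply Set.Infinite.mono (s := ({0} : Set ℂ)ᶜ)
      · intro e he
        rw [Set.mem_ofPred_eq, Polynomial.eval_mul, Polynomial.eval_mul, Polynomial.eval_C,
          Polynomial.eval_pow, Polynomial.eval_pow,
          Polynomial.eval_X, mul_comm (eval c G), ← h c e he, mul_comm, eval_eq']
        congr 1
        simp only [g, Polynomial.eval_finsetSum, Polynomial.eval_mul, Polynomial.eval_C,
          Polynomial.eval_pow, Polynomial.eval_X]
        apply Finset.sum_congr rfl
        intro f _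
        rw [mul_assoc]
        congr 1
        simp only [mul_pow]
        rw [Finset.prod_mul_distrib, mul_comm]
        congr 1
        rw [← Finset.prod_pow_eq_pow_sum]
        apply Finset.prod_congr rfl
        intro i _
        rw [pow_mul]
      · exact (Set.finite_singleton (0 : ℂ)).infinite_compl
    have hgc : g.coeff (∑ i, w i * m i) = 0 := by
      have h1 := congrArg (fun p : Polynomial ℂ => p.coeff (∑ i, w i * m i + r)) hg
      simp only [Polynomial.coeff_mul_X_pow, Polynomial.coeff_C_mul, Polynomial.coeff_X_pow,
        if_neg hlt, mul_zero] at h1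
      exact h1
    rw [← hgc]
    simp only [g, Gn, Polynomial.finsetSum_coeff, Polynomial.coeff_C_mul, Polynomial.coeff_X_pow,
      map_sum]
    rw [Finset.sum_filter]
    apply Finset.sum_congr rfl
    intro f _
    by_cases hf : ∑ i, w i * f i = ∑ i, w i * m i
    · rw [if_pos hf, if_pos hf.symm, eval_monomial, mul_one, Finsupp.prod_fintype _ _
        (fun i => pow_zero _)]
    · rw [if_neg hf, if_neg (Ne.symm hf), mul_zero]
  have h2 : coeff m Gn = coeff m G := by
    simp only [Gn, coeff_sum, coeff_monomial]
    rw [Finset.sum_filter, Finset.sum_eq_single m]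
    · rw [if_pos rfl, if_pos rfl]
    · intro f _ hf
      rw [if_neg hf, ite_self]
    · intro hm'
      exact absurd hm hm'
  rw [hGn, coeff_zero] at h2
  exact (mem_support_iff.1 hm) h2.symm

/-- The weights in the coordinates from the scalings of the coordinates, with a factor. -/
lemma coord_weight' {ι : Type*} [Fintype ι] [DecidableEq ι] {n : ℕ} (r w : Fin n → ℕ)
    (G : MvPolynomial (ι × Fin n) ℂ)
    (h : ∀ (c : ι × Fin n → ℂ) (l : Fin n → ℂ), (∀ i, l i ≠ 0) →
      (∏ i, l i ^ r i) * eval (fun p => l p.2 * c p) G = (∏ i, l i ^ w i) * eval c G)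
    (m : ι × Fin n →₀ ℕ) (hm : m ∈ G.support) (i : Fin n) : ∑ j, m (j, i) + r i = w i := by
  have h1 := weight_eq_of_scaling' G (fun p => if p.2 = i then 1 else 0) (r i) (w i) (by
    intro c l hl
    have h2 := h c (fun i' => if i' = i then l else 1) (by
      intro i'; split_ifs
      · exact hl
      · exact one_ne_zero)
    have h3 : ∀ v : Fin n → ℕ, (∏ i', (if i' = i then l else 1) ^ v i') = l ^ v i := by
      intro v
      rw [Finset.prod_eq_single i]
      · rw [if_pos rfl]
      · intro i' _ hi'; rw [if_neg hi', one_pow]
      · intro hi'; exact absurd (Finset.mem_univ _) hi'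
    rw [h3, h3] at h2
    rw [← h2]
    congr 1
    congr 1
    congr 1
    funext p
    split_ifs
    · rw [pow_one]
    · rw [pow_zero]) m hm
  rw [Fintype.sum_prod_type_right, Finset.sum_eq_single i] at h1
  · simpa using h1
  · intro i' _ hi
    apply Finset.sum_eq_zero
    intro k _
    simp [hi]
  · intro h'
    exact absurd (Finset.mem_univ _) h'

variable {A : Type*} [CommRing A] [Algebra ℂ A]

/-- **The mixed row**, in a general algebra, weight form. -/
theorem mixed_pureW {n a b ρ d : ℕ} {r t : Fin n → ℕ} (i₀ : Fin n) (hρ : ρ = ∑ i, r i) (F : MultilinearMap ℂ (fun _ : Fin (a + 1) => A) ℂ)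
    (p q : A) (zb : Fin n → A) (Z L : Submodule ℂ A) (hzb : ∀ l, zb l ∈ Z)
    (hZ : ∀ z ∈ Z, ∃ c : Fin n → ℂ, z = ∑ l, c l • zb l) (hZL : Z ≤ L) (hp : p ∈ L) (hq : q ∈ L)
    (hL : ∀ l ∈ L, ∃ α β : ℂ, ∃ z ∈ Z, l = α • p + β • q + z)
    (τ : (Fin n → ℂ) → A →ₐ[ℂ] A) (τp : ∀ c, τ c p = p) (τq : ∀ c, τ c q = q)
    (τz : ∀ c l, τ c (zb l) = c l • zb l)
    (g : A → A →ₐ[ℂ] A) (gp : ∀ v ∈ Z, g v p = p + v) (gq : ∀ v ∈ Z, g v q = q)
    (gz : ∀ v ∈ Z, ∀ z ∈ Z, g v z = z)
    (hom : ∀ c : Fin n → ℂ, (∀ i, c i ≠ 0) → ∀ P : Fin (a + 1) → A, (∀ i, P i ∈ L ^ b) →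
      F (fun i => τ c (P i)) = (∏ i, c i ^ t i) * F P)
    (inv : ∀ v ∈ Z, ∀ P : Fin (a + 1) → A, (∀ i, P i ∈ L ^ b) → F (fun i => g v (P i)) = F P)
    (hr : ρ ≤ b) (w : A) (hw : w ∈ L ^ ρ) (hgw : ∀ v ∈ Z, g v w = w)
    (hτw : ∀ c, τ c w = (∏ i, c i ^ r i) • w)
    (hQ : ∀ B ∈ L ^ (b - ρ), ∀ x : ℂ, ∀ z ∈ Z, ∀ h : Fin a → A, (∀ i, h i ∈ L ^ (b - 1)) →
      ∃ P : Polynomial ℂ, P.natDegree ≤ d ∧
        ∀ c, P.eval c = F.curryLeft (w * B) (fun i => (lin p q x + c • z) * h i))
    (hlt : b * d + b + r i₀ < (∑ i, t i) + t i₀) :
    ∀ B ∈ L ^ (b - ρ), IsK L b (F.curryLeft (w * B)) := by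
  classical
  have key : ∀ (y : Fin (b - ρ) → ℂ) (v : Fin (b - ρ) → A), (∀ i, v i ∈ Z) →
      IsK L b (F.curryLeft (w * ∏ i, (lin p q (y i) + v i))) := by
    intro y v hv
    apply isK_of_chart _ p q Z L hL
    intro x z hz
    choose γ hγ using fun i => hZ (v i) (hv i)
    choose κ hκ using fun j => hZ (z j) (hz j)
    obtain ⟨G, hG, -⟩ := mv_exists (σ := (Fin b ⊕ Fin (b - ρ)) × Fin n) F
      (Fin.cons (C w * ∏ i, (C (lin p q (y i)) + ∑ l, X (Sum.inr i, l) * C (zb l)))
        (fun _ => ∏ j, (C (lin p q (x j)) + ∑ l, X (Sum.inl j, l) * C (zb l))))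
    let W : ((Fin b ⊕ Fin (b - ρ)) × Fin n → ℂ) → A := fun e =>
      ∏ i, (lin p q (y i) + ∑ l, e (Sum.inr i, l) • zb l)
    let Q : ((Fin b ⊕ Fin (b - ρ)) × Fin n → ℂ) → A := fun e =>
      ∏ j, (lin p q (x j) + ∑ l, e (Sum.inl j, l) • zb l)
    have hG' : ∀ e, eval e G = F (Fin.cons (w * W e) (fun _ => Q e)) := by
      intro e
      rw [hG]
      congr 1
      funext i
      refine Fin.cases ?_ (fun i => ?_) i
      · rw [Fin.cons_zero, Fin.cons_zero, map_mul, evA_C, map_prod]
        congr 1
        apply Finset.prod_congr rfl
        intro j _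
        rw [map_add, evA_C, map_sum]
        congr 1
        apply Finset.sum_congr rfl
        intro l _
        rw [map_mul, evA_X, evA_C, Algebra.smul_def]
      · rw [Fin.cons_succ, Fin.cons_succ, map_prod]
        apply Finset.prod_congr rfl
        intro j _
        rw [map_add, evA_C, map_sum]
        congr 1
        apply Finset.sum_congr rfl
        intro l _
        rw [map_mul, evA_X, evA_C, Algebra.smul_def]
    have hs : ∀ c : Fin n → ℂ, ∑ l, c l • zb l ∈ Z := fun c =>
      Z.sum_mem fun l _ => Z.smul_mem _ (hzb l)
    have hline : ∀ (x : ℂ) (c : Fin n → ℂ), lin p q x + ∑ l, c l • zb l ∈ L := by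
      intro x c
      exact L.add_mem (L.add_mem hp (L.smul_mem _ hq)) (hZL (hs c))
    have hW : ∀ e, W e ∈ L ^ (b - ρ) := by
      intro e
      have h1 := prod_mem_pow_card L (Finset.univ : Finset (Fin (b - ρ)))
        (fun i => lin p q (y i) + ∑ l, e (Sum.inr i, l) • zb l) (fun i => hline _ _)
      rwa [Finset.card_univ, Fintype.card_fin] at h1
    have hQm : ∀ e, Q e ∈ L ^ b := by
      intro e
      have h1 := prod_mem_pow_card L (Finset.univ : Finset (Fin b))
        (fun j => lin p q (x j) + ∑ l, e (Sum.inl j, l) • zb l) (fun j => hline _ _)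
      rwa [Finset.card_univ, Fintype.card_fin] at h1
    have hwW : ∀ e, w * W e ∈ L ^ b := by
      intro e
      have : L ^ b = L ^ ρ * L ^ (b - ρ) := by rw [← pow_add]; congr 1; omega
      rw [this]
      exact Submodule.mul_mem_mul hw (hW e)
    have hPm : ∀ e, ∀ i, (Fin.cons (w * W e) (fun _ => Q e) : Fin (a + 1) → A) i ∈ L ^ b := by
      intro e i
      refine Fin.cases ?_ (fun i => ?_) i
      · rw [Fin.cons_zero]; exact hwW e
      · rw [Fin.cons_succ]; exact hQm e
    have hG0 : G = 0 := by
      by_contra hne
      obtain ⟨m₀, hm₀⟩ := Finset.nonempty_iff_ne_empty.2 (fun e => hne (support_eq_empty.1 e))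
      have hwt : ∀ m ∈ G.support, ∀ i, ∑ j, m (j, i) + r i = t i := by
        intro m hm i
        refine coord_weight' r t G ?_ m hm i
        intro c u hu
        have h1 := hom u hu _ (hPm c)
        have h2 : (fun i => τ u ((Fin.cons (w * W c) (fun _ => Q c) : Fin (a + 1) → A) i)) =
            Fin.cons ((∏ i, u i ^ r i) • (w * W (fun q => u q.2 * c q)))
              (fun _ => Q (fun q => u q.2 * c q)) := by
          funext i
          refine Fin.cases ?_ (fun i => ?_) i
          · rw [Fin.cons_zero, Fin.cons_zero, map_mul, hτw, smul_mul_assoc]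
            congr 2
            rw [map_prod]
            apply Finset.prod_congr rfl
            intro i _
            rw [map_add, lin, map_add, map_smul, τp, τq, map_sum]
            congr 1
            apply Finset.sum_congr rfl
            intro l _
            rw [map_smul, τz, smul_smul, mul_comm]
          · rw [Fin.cons_succ, Fin.cons_succ, map_prod]
            apply Finset.prod_congr rfl
            intro i _
            rw [map_add, lin, map_add, map_smul, τp, τq, map_sum]
            congr 1
            apply Finset.sum_congr rfl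
            intro l _
            rw [map_smul, τz, smul_smul, mul_comm]
        rw [h2] at h1
        have h3 : F (Fin.cons ((∏ i, u i ^ r i) • (w * W (fun q => u q.2 * c q)))
            (fun _ => Q (fun q => u q.2 * c q))) =
            F.curryLeft ((∏ i, u i ^ r i) • (w * W (fun q => u q.2 * c q)))
              (fun _ => Q (fun q => u q.2 * c q)) := rfl
        rw [h3, map_smul, _root_.smul_apply, MultilinearMap.curryLeft_apply, smul_eq_mul,
          ← hG' (fun q => u q.2 * c q), ← hG' c] at h1
        exact h1
      have hrt : ∀ i, r i ≤ t i := fun i => by have := hwt m₀ hm₀ i; omega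
      have hsum : ∑ i, (t i - r i) + ∑ i, r i = ∑ i, t i := by
        rw [← Finset.sum_add_distrib]
        exact Finset.sum_congr rfl fun i _ => by have := hrt i; omega
      apply hne
      apply block_zeroW (fun i => t i - r i) G (Sum.elim (fun _ => d) (fun _ => 1)) _
        (fun m hm i => by have := hwt m hm i; omega) i₀
      rotate_left 2
      · -- degrees
        intro m hm j
        have hconv : ∑ l, m (j, l) = ∑ q ∈ Finset.univ.filter
            (fun q : (Fin b ⊕ Fin (b - ρ)) × Fin n => q.1 = j), m q := by
          refine Finset.sum_bij (fun l _ => (j, l)) ?_ ?_ ?_ ?_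
          · intro l _; simp
          · intro l _ l' _ h; exact (Prod.mk.inj h).2
          · rintro ⟨j', l'⟩ h
            rw [Finset.mem_filter] at h
            exact ⟨l', Finset.mem_univ _, by rw [← h.2]⟩
          · intro l _; rfl
        rw [hconv]
        refine deg_le_of_scaling _ G _ ?_ m hm
        intro c
        rcases j with j | i0
        · -- a column
          rw [Sum.elim_inl]
          obtain ⟨P, hPd, hPe⟩ := hQ (W c) (hW c) (x j) (∑ l, c (Sum.inl j, l) • zb l) (hs _)
            (fun _ => ∏ j' ∈ Finset.univ.erase j,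
              (lin p q (x j') + ∑ l, c (Sum.inl j', l) • zb l)) (by
              intro _
              have h1 := prod_mem_pow_card L (Finset.univ.erase j)
                (fun j' => lin p q (x j') + ∑ l, c (Sum.inl j', l) • zb l) (fun j => hline _ _)
              rwa [Finset.card_erase_of_mem (Finset.mem_univ j), Finset.card_univ,
                Fintype.card_fin] at h1)
          refine ⟨P, hPd, ?_⟩
          intro u
          rw [hPe, hG', MultilinearMap.curryLeft_apply]
          congr 1
          congr 1
          · have : W (fun q => if q ∈ Finset.univ.filter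
                (fun q : (Fin b ⊕ Fin (b - ρ)) × Fin n => q.1 = Sum.inl j) then u * c q else c q) =
                W c := by
              apply Finset.prod_congr rfl
              intro i _
              simp
            rw [this]
          · funext _
            show _ = ∏ j', _
            rw [← Finset.mul_prod_erase Finset.univ _ (Finset.mem_univ j)]
            congr 1
            · simp [Finset.smul_sum, smul_smul]
            · apply Finset.prod_congr rfl
              intro j' hj'
              have hne := Finset.ne_of_mem_erase hj'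
              simp [hne]
        · -- a line of the first argument
          rw [Sum.elim_inr]
          let R : A := ∏ i ∈ Finset.univ.erase i0, (lin p q (y i) + ∑ l, c (Sum.inr i, l) • zb l)
          refine ⟨Polynomial.C (F (Fin.cons (w * (lin p q (y i0) * R)) (fun _ => Q c))) +
            Polynomial.C (F (Fin.cons (w * ((∑ l, c (Sum.inr i0, l) • zb l) * R))
              (fun _ => Q c))) * Polynomial.X, ?_, ?_⟩
          · refine (Polynomial.natDegree_add_le _ _).trans (max_le ?_ ?_)
            · rw [Polynomial.natDegree_C]; exact Nat.zero_le _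
            · exact (Polynomial.natDegree_C_mul_le _ _).trans Polynomial.natDegree_X_le
          · intro u
            rw [hG']
            have hQc : Q (fun q => if q ∈ Finset.univ.filter
                (fun q : (Fin b ⊕ Fin (b - ρ)) × Fin n => q.1 = Sum.inr i0) then u * c q
                else c q) = Q c := by
              apply Finset.prod_congr rfl
              intro j _
              simp
            have hWc : W (fun q => if q ∈ Finset.univ.filter
                (fun q : (Fin b ⊕ Fin (b - ρ)) × Fin n => q.1 = Sum.inr i0) then u * c q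
                else c q) = lin p q (y i0) * R + u • ((∑ l, c (Sum.inr i0, l) • zb l) * R) := by
              show ∏ i, _ = _
              rw [← Finset.mul_prod_erase Finset.univ _ (Finset.mem_univ i0)]
              have h5 : ∏ i ∈ Finset.univ.erase i0, (lin p q (y i) + ∑ l,
                  (if (Sum.inr i, l) ∈ Finset.univ.filter
                    (fun q : (Fin b ⊕ Fin (b - ρ)) × Fin n => q.1 = Sum.inr i0)
                    then u * c (Sum.inr i, l) else c (Sum.inr i, l)) • zb l) = R := by
                apply Finset.prod_congr rfl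
                intro i hi
                have hne := Finset.ne_of_mem_erase hi
                simp [hne]
              rw [h5, ← smul_mul_assoc, ← add_mul]
              congr 2
              simp [Finset.smul_sum, smul_smul]
            rw [hQc, hWc]
            have h6 : F (Fin.cons (w * (lin p q (y i0) * R +
                u • ((∑ l, c (Sum.inr i0, l) • zb l) * R))) (fun _ => Q c)) =
                F.curryLeft (w * (lin p q (y i0) * R +
                u • ((∑ l, c (Sum.inr i0, l) • zb l) * R))) (fun _ => Q c) := rfl
            rw [h6, mul_add, mul_smul_comm, map_add, map_smul, _root_.add_apply, _root_.smul_apply,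
              MultilinearMap.curryLeft_apply, MultilinearMap.curryLeft_apply, Polynomial.eval_add,
              Polynomial.eval_mul, Polynomial.eval_C, Polynomial.eval_C, Polynomial.eval_X,
              smul_eq_mul, mul_comm u]
      · -- invariance
        intro ε c
        obtain ⟨l0, hl0⟩ : ∃ l0, l0 = i₀ := ⟨_, rfl⟩
        rw [← hl0]
        have h1 := inv (ε • zb l0) (Z.smul_mem _ (hzb l0)) _ (hPm c)
        rw [hG', hG', ← h1]
        have hsum : ∀ (j : Fin b ⊕ Fin (b - ρ)),
            ∑ l, (if l = l0 then c (j, l) + ε else c (j, l)) • zb l =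
              ε • zb l0 + ∑ l, c (j, l) • zb l := by
          intro j
          have h7 : ∀ l, (if l = l0 then c (j, l) + ε else c (j, l)) • zb l =
              (if l = l0 then ε • zb l0 else 0) + c (j, l) • zb l := by
            intro l
            by_cases hl : l = l0
            · rw [if_pos hl, if_pos hl, hl, add_smul, add_comm]
            · rw [if_neg hl, if_neg hl, zero_add]
          rw [Finset.sum_congr rfl fun l _ => h7 l, Finset.sum_add_distrib, Finset.sum_ite_eq',
            if_pos (Finset.mem_univ _)]
        congr 1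
        funext i
        refine Fin.cases ?_ (fun i => ?_) i
        · rw [Fin.cons_zero, Fin.cons_zero, map_mul, hgw _ (Z.smul_mem _ (hzb l0))]
          congr 1
          rw [map_prod]
          apply Finset.prod_congr rfl
          intro i _
          rw [map_add, lin, map_add, map_smul, gp _ (Z.smul_mem _ (hzb l0)),
            gq _ (Z.smul_mem _ (hzb l0)), gz _ (Z.smul_mem _ (hzb l0)) _ (hs _), hsum]
          abel
        · rw [Fin.cons_succ, Fin.cons_succ, map_prod]
          apply Finset.prod_congr rfl
          intro i _
          rw [map_add, lin, map_add, map_smul, gp _ (Z.smul_mem _ (hzb l0)),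
            gq _ (Z.smul_mem _ (hzb l0)), gz _ (Z.smul_mem _ (hzb l0)) _ (hs _), hsum]
          abel
      · rw [Fintype.sum_sum_type]
        simp only [Sum.elim_inl, Sum.elim_inr, Finset.sum_const, Finset.card_univ,
          Fintype.card_fin, smul_eq_mul, mul_one]
        have := hrt i₀
        omega
    have hfin := hG' (fun q => Sum.elim (fun j => κ j q.2) (fun i => γ i q.2) q.1)
    rw [hG0, map_zero] at hfin
    rw [MultilinearMap.curryLeft_apply]
    rw [hfin]
    congr 1
    funext i
    refine Fin.cases ?_ (fun i => ?_) i
    · rw [Fin.cons_zero, Fin.cons_zero]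
      congr 1
      apply Finset.prod_congr rfl
      intro i _
      rw [hγ i]
      rfl
    · rw [Fin.cons_succ, Fin.cons_succ]
      apply Finset.prod_congr rfl
      intro j _
      rw [hκ j]
      rfl
  intro B hB m hm hmL
  let M : Submodule ℂ A :=
    { carrier := {B | F.curryLeft (w * B) (fun _ => m.prod) = 0}
      add_mem' := by
        intro x y hx hy
        show F.curryLeft (w * (x + y)) _ = 0
        rw [mul_add, map_add, _root_.add_apply]
        have hx' : F.curryLeft (w * x) (fun _ => m.prod) = 0 := hx
        have hy' : F.curryLeft (w * y) (fun _ => m.prod) = 0 := hy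
        rw [hx', hy', add_zero]
      zero_mem' := by
        show F.curryLeft (w * 0) _ = 0
        rw [mul_zero, map_zero]; rfl
      smul_mem' := by
        intro c x hx
        show F.curryLeft (w * (c • x)) _ = 0
        have hx' : F.curryLeft (w * x) (fun _ => m.prod) = 0 := hx
        rw [mul_smul_comm, map_smul, _root_.smul_apply, hx', smul_zero] }
  have hM : L ^ (b - ρ) ≤ M := pow_le_of_chart hL (b - ρ) M fun y z hz => key y z hz m hm hmL
  exact hM hB

end Vale.Agent.P181.H503
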