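import Vale.Agent.P181.H503.WMix

/-!
# P181: the mixed row in weight-vector form, letters of `TN`
-/

set_option autoImplicit false

open MvPolynomial

namespace Vale.Agent.P181.TN

open Vale.Agent.P181 Vale.Agent.P181.H536 Vale.Agent.P181.H280

lemma zmon_mem {n : ℕ} (r : Fin n → ℕ) :
    ∏ i, (X i.succ.succ : Sn n) ^ r i ∈ ZZ n ^ (∑ i, r i) := by
  have key : ∀ S : Finset (Fin n), ∏ i ∈ S, (X i.succ.succ : Sn n) ^ r i ∈ ZZ n ^ (∑ i ∈ S, r i) := by
    classical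
    intro S
    induction S using Finset.induction_on with
    | empty => rw [Finset.prod_empty, Finset.sum_empty, pow_zero]; exact Submodule.one_le.1 le_rfl
    | insert i S hi ih =>
      rw [Finset.prod_insert hi, Finset.sum_insert hi, pow_add]
      have h1 : (X i.succ.succ : Sn n) ∈ ZZ n := Submodule.subset_span ⟨i, rfl⟩
      exact Submodule.mul_mem_mul (Submodule.pow_mem_pow _ h1 _) ih
  exact key Finset.univ

/-- **The mixed row, weight form** (abstract scalings). -/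
theorem mixedW_gen {n m b s : ℕ} {r w : Fin n → ℕ} (τ : (Fin n → ℂ) → Sn n →ₐ[ℂ] Sn n)
    (τ0 : ∀ c, τ c (X 0) = X 0) (τ1 : ∀ c, τ c (X 1) = X 1)
    (τs : ∀ c (i : Fin n), τ c (X i.succ.succ) = c i • (X i.succ.succ : Sn n))
    (hs : 2 ≤ s) (hr : ∑ i, r i ≤ b) (F : Fm n (m + 1)) (hI : Inv b F)
    (hH : ∀ c : Fin n → ℂ, (∀ i, c i ≠ 0) → ∀ P : Fin (m + 1) → Sn n, Dg b P →
      F (fun j => τ c (P j)) = (∏ i, c i ^ w i) * F P) (i₀ : Fin n)
    (hQ : ∀ B ∈ linS (n + 2) ^ (b - ∑ i, r i),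
      QQ (s - 1) b (F.curryLeft ((∏ i, (X i.succ.succ : Sn n) ^ r i) * B)))
    (h : (s - 1) * b + r i₀ < (∑ i, w i) + w i₀) :
    ∀ B ∈ linS (n + 2) ^ (b - ∑ i, r i),
      IsK (linS (n + 2)) b (F.curryLeft ((∏ i, (X i.succ.succ : Sn n) ^ r i) * B)) := by
  obtain ⟨s', rfl⟩ : ∃ s', s = s' + 2 := ⟨s - 2, by omega⟩
  have e1 : s' + 2 - 1 = s' + 1 := rfl
  rw [e1] at h
  have hlt : b * s' + b + r i₀ < (∑ i, w i) + w i₀ := by
    have : (s' + 1) * b = b * s' + b := by ring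
    omega
  refine H503.mixed_pureW (r := r) (t := w) (d := s') i₀ rfl F (X 0) (X 1)
    (fun l : Fin n => X l.succ.succ) (ZZ n) (linS (n + 2))
    (fun l => Submodule.subset_span ⟨l, rfl⟩) ?_ ZZ_le (X_mem_linS _) (X_mem_linS _) ?_
    τ τ0 τ1 τs
    (fun v => sh n v) (fun v _ => sh_X0 v) (fun v _ => sh_X1 v) (fun v _ z hz => sh_Z hz)
    hH hI hr (∏ i, (X i.succ.succ : Sn n) ^ r i) (pow_le_pow_left' ZZ_le _ (zmon_mem r))
    (fun v _ => sh_ZZ_pow (zmon_mem r)) ?_ ?_ hlt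
  · intro z hz
    obtain ⟨c, hc⟩ := (Submodule.mem_span_range_iff_exists_fun ℂ).1 hz
    exact ⟨c, hc.symm⟩
  · intro l hl
    rw [linS_eq, Submodule.mem_sup] at hl
    obtain ⟨u, hu, z, hz, rfl⟩ := hl
    obtain ⟨α, β, rfl⟩ := Submodule.mem_span_pair.1 hu
    exact ⟨α, β, z, hz, rfl⟩
  · intro c
    rw [map_prod, ← Finset.prod_smul]
    refine Finset.prod_congr rfl fun i _ => ?_
    rw [map_pow, τs, smul_pow]
  · intro B hB x z hz g hg
    obtain ⟨P, hP, hPe⟩ := hQ B hB x z hz g hg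
    refine ⟨P, ?_, hPe⟩
    by_cases hP0 : P = 0
    · rw [hP0, Polynomial.natDegree_zero]; exact Nat.zero_le _
    · rw [Polynomial.degree_eq_natDegree hP0] at hP
      have : P.natDegree < s' + 2 - 1 := by exact_mod_cast hP
      omega

end Vale.Agent.P181.TN
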