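import Vale.Agent.P181.R2.H240.NLemmaI

/-!
# P181: the polynomial lemma of the weight-vector form of Lemma I
-/

set_option autoImplicit false

open MvPolynomial

namespace Vale.Agent.P181.H503

/-- Weights of the monomials from the scalings. -/
lemma weight_eq_of_scaling {σ : Type*} [Fintype σ] (G : MvPolynomial σ ℂ) (w : σ → ℕ) (t : ℕ)
    (h : ∀ (c : σ → ℂ) (l : ℂ), l ≠ 0 → eval (fun i => l ^ w i * c i) G = l ^ t * eval c G)
    (m : σ →₀ ℕ) (hm : m ∈ G.support) : ∑ i, w i * m i = t := by
  classical
  by_contra hlt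
  let Gn : MvPolynomial σ ℂ :=
    ∑ f ∈ G.support.filter (fun f => ∑ i, w i * f i = ∑ i, w i * m i), monomial f (coeff f G)
  have hGn : Gn = 0 := by
    apply MvPolynomial.funext
    intro c
    rw [map_zero]
    let g : Polynomial ℂ := ∑ f ∈ G.support,
      Polynomial.C (coeff f G * ∏ i, c i ^ f i) * Polynomial.X ^ (∑ i, w i * f i)
    have hg : g = Polynomial.C (eval c G) * Polynomial.X ^ t := by
      apply Polynomial.eq_of_infinite_eval_eq
      apply Set.Infinite.mono (s := ({0} : Set ℂ)ᶜ)
      · intro e he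
        rw [Set.mem_ofPred_eq, Polynomial.eval_mul, Polynomial.eval_C, Polynomial.eval_pow,
          Polynomial.eval_X, mul_comm, ← h c e he, eval_eq']
        simp only [g, Polynomial.eval_finsetSum, Polynomial.eval_mul, Polynomial.eval_C,
          Polynomial.eval_pow, Polynomial.eval_X]
        apply Finset.sum_congr rfl
        intro f _
        rw [mul_assoc]
        congr 1
        simp only [mul_pow]
        rw [Finset.prod_mul_distrib, mul_comm]
        congr 1
        rw [← Finset.prod_pow_eq_pow_sum]
        apply Finset.prod_congr rfl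
        intro i _
        rw [pow_mul]
      · exact (Set.finite_singleton (0 : ℂ)).infinite_compl
    have hgc : g.coeff (∑ i, w i * m i) = 0 := by
      rw [hg, Polynomial.coeff_C_mul, Polynomial.coeff_X_pow, if_neg hlt, mul_zero]
    rw [← hgc]
    simp only [g, Gn, Polynomial.finsetSum_coeff, Polynomial.coeff_C_mul, Polynomial.coeff_X_pow,
      map_sum]
    rw [Finset.sum_filter]
    apply Finset.sum_congr rfl
    intro f _
    by_cases hf : ∑ i, w i * f i = ∑ i, w i * m i
    · rw [if_pos hf, if_pos hf.symm, eval_monomial, mul_one, Finsupp.prod_fintype _ _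
        (fun i => pow_zero _)]
    · rw [if_neg hf, if_neg (Ne.symm hf), mul_zero]
  have h2 : coeff m Gn = coeff m G := by
    simp only [Gn, coeff_sum, coeff_monomial]
    rw [Finset.sum_filter, Finset.sum_eq_single m]
    · rw [if_pos rfl, if_pos rfl]
    · intro f _ hf
      rw [if_neg hf, ite_self]
    · intro hm'
      exact absurd hm hm'
  rw [hGn, coeff_zero] at h2
  exact (mem_support_iff.1 hm) h2.symm

/-- **The polynomial lemma, weight form.** A polynomial in the variables `c_(j,i)`, of degree at
most `D j` in block `j`, of weight `w i` in coordinate `i` (for every `i`), and invariant under the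
translations of ONE coordinate `i₀` vanishes if `∑ D < |w| + w i₀`. -/
theorem block_zeroW {ι : Type*} [Fintype ι] [DecidableEq ι] {n : ℕ} (w : Fin n → ℕ)
    (G : MvPolynomial (ι × Fin n) ℂ) (D : ι → ℕ)
    (hD : ∀ d ∈ G.support, ∀ j, ∑ i, d (j, i) ≤ D j)
    (hw : ∀ d ∈ G.support, ∀ i, ∑ j, d (j, i) = w i) (i₀ : Fin n)
    (hinv : ∀ (e : ℂ) (c : ι × Fin n → ℂ),
      eval (fun p => if p.2 = i₀ then c p + e else c p) G = eval c G)
    (h : ∑ j, D j < (∑ i, w i) + w i₀) : G = 0 := by
  refine R2.H572.Blk.sl2_block (Prod.fst : ι × Fin n → ι) (fun j => (j, i₀)) (fun _ => rfl) D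
    (t := ∑ i, w i) (l := w i₀) G ?_ ?_ ?_ ?_ h
  · intro m hm j
    refine le_trans (le_of_eq ?_) (hD m hm j)
    symm
    refine Finset.sum_bij (fun i _ => (j, i)) ?_ ?_ ?_ ?_
    · intro i _; simp
    · intro i _ i' _ h; exact (Prod.mk.inj h).2
    · rintro ⟨j', i'⟩ h
      rw [Finset.mem_filter] at h
      exact ⟨i', Finset.mem_univ _, by rw [← h.2]⟩
    · intro i _; rfl
  · intro m hm
    rw [Fintype.sum_prod_type_right]
    exact Finset.sum_congr rfl fun i _ => hw m hm i
  · intro m hm; exact hw m hm i₀
  · intro ε c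
    rw [← hinv ε c]
    congr 1
    congr 1
    funext p
    by_cases hp : p.2 = i₀
    · rw [if_pos (by rw [← hp]), if_pos hp]
    · rw [if_neg (fun e => hp (by rw [e])), if_neg hp]

/-- The weights in the coordinates from the scalings of the coordinates. -/
lemma coord_weight {ι : Type*} [Fintype ι] [DecidableEq ι] {n : ℕ} (w : Fin n → ℕ)
    (G : MvPolynomial (ι × Fin n) ℂ)
    (h : ∀ (c : ι × Fin n → ℂ) (l : Fin n → ℂ), (∀ i, l i ≠ 0) →
      eval (fun p => l p.2 * c p) G = (∏ i, l i ^ w i) * eval c G)
    (m : ι × Fin n →₀ ℕ) (hm : m ∈ G.support) (i : Fin n) : ∑ j, m (j, i) = w i := by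
  have h1 := weight_eq_of_scaling G (fun p => if p.2 = i then 1 else 0) (w i) (by
    intro c l hl
    have h2 := h c (fun i' => if i' = i then l else 1) (by
      intro i'; split_ifs
      · exact hl
      · exact one_ne_zero)
    have h3 : (∏ i', (if i' = i then l else 1) ^ w i') = l ^ w i := by
      rw [Finset.prod_eq_single i]
      · rw [if_pos rfl]
      · intro i' _ hi'; rw [if_neg hi', one_pow]
      · intro hi'; exact absurd (Finset.mem_univ _) hi'
    rw [h3] at h2
    rw [← h2]
    congr 1
    congr 1
    funext p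
    split_ifs
    · rw [pow_one]
    · rw [pow_zero]) m hm
  rw [Fintype.sum_prod_type_right, Finset.sum_eq_single i] at h1
  · simpa using h1
  · intro i' _ hi
    apply Finset.sum_eq_zero
    intro k _
    simp [hi]
  · intro h'
    exact absurd (Finset.mem_univ _) h'

end Vale.Agent.P181.H503
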